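import Vale.Agent.P168.Lim
import Vale.Agent.P166F.Low.Discr
import Vale.Agent.P168.CascForm.Build

/-!
P168: discrete cascades with prescribed exponents, and positivity of their ultrametric patterns.
-/

namespace Vale.Agent.P168

open Vale.Agent.P157.Low

/-- Strict levels are exponents. -/
lemma expo_of_levels {r : ℕ} {c : Fin (r + 1) → ℝ} (hc : P166F.Levels c) : CascForm.Expo c :=
  ⟨hc.zero, hc.strict.monotone, fun j => (hc.ltOne j).le⟩

/-- A cascade with any strictly increasing exponents. -/
theorem exists_casc {r : ℕ} (c : Fin (r + 1) → ℝ) (hc : P166F.Levels c) :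
    ∃ C : Casc r, C.cdf = c :=
  ⟨CascForm.casc (expo_of_levels hc), CascForm.casc_cdf _⟩

/-- With strict exponents the weights of one more replica are positive. -/
lemma gRatio_strict {r n : ℕ} {c : Fin (r + 1) → ℝ} (hc : P166F.Levels c) {A : LMat r n}
    (hA : Good A) (a : Fin n) {q : ℕ} (hq : q ≤ r) :
    CascForm.gRatio c A a q < CascForm.gRatio c A a (q + 1) := by
  have hp : (0 : ℝ) < CascForm.cs A q a := Nat.cast_pos.2 (CascForm.cs_pos hA hq a)
  rw [CascForm.gRatio, dif_pos (by omega : q < r + 1), CascForm.gRatio]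
  split_ifs with h
  · have h1 : c ⟨q, by omega⟩ < c ⟨q + 1, h⟩ := hc.strict (Fin.lt_def.2 (by simp))
    have h0 : 0 ≤ c ⟨q, by omega⟩ := hc.zero ▸ hc.strict.monotone (Fin.zero_le _)
    have hs : (CascForm.cs A (q + 1) a : ℝ) ≤ CascForm.cs A q a :=
      Nat.cast_le.2 (CascForm.cs_anti A a (Nat.le_succ q))
    have hs0 : (0 : ℝ) < CascForm.cs A (q + 1) a := Nat.cast_pos.2 (CascForm.cs_pos hA (by omega) a)
    calc c ⟨q, by omega⟩ / CascForm.cs A q a ≤ c ⟨q, by omega⟩ / CascForm.cs A (q + 1) a :=
          div_le_div_of_nonneg_left h0 hs0 hs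
      _ < _ := div_lt_div_of_pos_right h1 hs0
  · rw [div_lt_one hp]
    exact (hc.ltOne _).trans_le (Nat.one_le_cast.2 (CascForm.cs_pos hA hq a))

/-- Every ultrametric pattern has positive probability. -/
theorem casc_pos {r : ℕ} (C : Casc r) (hC : P166F.Levels C.cdf) {n : ℕ} {A : LMat r n}
    (hA : Good A) : 0 < C.P n A := by
  classical
  induction n with
  | zero =>
    have h := C.total 0
    rw [Fintype.sum_subsingleton _ A] at h
    exact one_pos.trans_eq h.symm
  | succ n ih =>
    set A₀ := sub A Fin.castSucc with hA₀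
    set c₀ : Fin n → Fin (r + 1) := fun a => A (Fin.last n) a.castSucc
    have hgA : Good A₀ := CascForm.good_castSucc hA
    have hcol : CascForm.IsCol A₀ c₀ := CascForm.isCol_last hA
    have heq : CascForm.ext A₀ c₀ = A := CascForm.ext_eta hA
    have h := CascForm.casc_step C (fun B => if B = A then (1 : ℝ) else 0) (n := n)
    simp only [mul_ite, mul_one, mul_zero, Finset.sum_ite_eq', Finset.mem_univ, if_true] at h
    rw [h]
    have hm := expo_of_levels hC
    have hnn : ∀ B, Good B →
        0 ≤ CascForm.colAv C.cdf B (fun c => if CascForm.ext B c = A then (1 : ℝ) else 0) :=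
      fun B hB => CascForm.colAv_nonneg hm hB fun c _ => by split_ifs <;> norm_num
    refine Finset.sum_pos' (fun B _ => ?_) ⟨A₀, Finset.mem_univ _, mul_pos (ih hgA) ?_⟩
    · rcases eq_or_ne (C.P n B) 0 with h0 | h0
      · simp [h0]
      · exact mul_nonneg (C.nonneg n B) (hnn B (C.good h0))
    · unfold CascForm.colAv
      by_cases hn : n = 0
      · rw [if_pos hn]
        have hc0 : c₀ = fun _ => Fin.last r := funext fun a => absurd a.isLt (by omega)
        show 0 < if CascForm.ext A₀ (fun _ => Fin.last r) = A then (1 : ℝ) else 0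
        rw [← hc0, if_pos heq]
        exact one_pos
      rw [if_neg hn]
      have : Nonempty (Fin n) := ⟨⟨0, Nat.pos_of_ne_zero hn⟩⟩
      obtain ⟨a, -, ha⟩ := Finset.exists_max_image Finset.univ c₀ Finset.univ_nonempty
      have hc : CascForm.col A₀ (c₀ a) a = c₀ := funext fun b => le_antisymm
        (hcol.down a b)
        (le_min (ha b (Finset.mem_univ b))
          ((le_min (ha b (Finset.mem_univ b)) le_rfl).trans (hcol.meet a b)))
      refine div_pos (Finset.sum_pos' (fun b _ => Finset.sum_nonneg fun j _ => mul_nonneg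
          (sub_nonneg.2 (CascForm.gRatio_mono hm hgA b (Fin.is_le j))) (by dsimp only; split_ifs <;> norm_num))
        ⟨a, Finset.mem_univ a, Finset.sum_pos' (fun j _ => mul_nonneg
          (sub_nonneg.2 (CascForm.gRatio_mono hm hgA a (Fin.is_le j))) (by dsimp only; split_ifs <;> norm_num))
        ⟨c₀ a, Finset.mem_univ _, ?_⟩⟩) (Nat.cast_pos.2 (Nat.pos_of_ne_zero hn))
      rw [hc]
      dsimp only
      rw [if_pos heq, mul_one]
      exact sub_pos.2 (gRatio_strict hC hgA a (Fin.is_le _))

/-- The exponents of a trial, with level zero. -/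
theorem levels_withZero {r : ℕ} {m : Fin r → ℝ} (hm : StrictMono m)
    (hI : ∀ p, 0 < m p ∧ m p < 1) : P166F.Levels (withZero m) := by
  refine ⟨by simp [withZero], Fin.strictMono_iff_lt_succ.2 fun i => ?_, fun l => ?_⟩
  · simp only [withZero, Fin.cons_succ]
    rcases Nat.eq_zero_or_pos (i : ℕ) with h | h
    · rw [show i.castSucc = 0 from Fin.ext (by simpa using h), Fin.cons_zero]
      exact (hI i).1
    · rw [show i.castSucc = (⟨(i : ℕ) - 1, by omega⟩ : Fin r).succ from Fin.ext (by simp; omega),
        Fin.cons_succ]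
      exact hm (Fin.lt_def.2 (by simp; omega))
  · cases l using Fin.cases with
    | zero => simp [withZero]
    | succ p => simpa [withZero] using (hI p).2

end Vale.Agent.P168
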