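import Mathlib

/-!
P168: the diluted spin glass, the nested trial functional of Mézard and Parisi, and the class of
models of Panchenko and Talagrand.
-/

namespace Vale.Agent.P168

open MeasureTheory
open scoped ENNReal

/-- The unit interval. -/
abbrev UI : Type := ↥unitInterval

/-- A clause function on `K` spins. -/
abbrev Table (K : ℕ) := (Fin K → Bool) → ℝ

/-- The spin of a bit. -/
def spin (s : Bool) : ℝ := if s then 1 else -1

/-- The parameters `(a, b, f)` of a clause function. -/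
abbrev Param (K : ℕ) := ℝ × ℝ × (Fin K → Bool → ℝ)

/-- The clause function with `exp θ = a (1 + b f₁ ⋯ f_K)`. -/
noncomputable def theta {K : ℕ} (p : Param K) : Table K :=
  fun σ => Real.log (p.1 * (1 + p.2.1 * ∏ j, p.2.2 j (σ j)))

/-- The class of models: `b` is independent of the `f_j`, which are independent copies of one random
function, and `E (-b) ^ n ≥ 0`; nothing is assumed about the dependence of `a` on the rest. -/
structure Admissible {K : ℕ} (P : Measure (Param K)) (η : Measure ℝ) : Prop where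
  probP : IsProbabilityMeasure P
  probH : IsProbabilityMeasure η
  range : ∀ᵐ p ∂P, 0 < p.1 ∧ |p.2.1| < 1 ∧ ∀ j s, |p.2.2 j s| ≤ 1
  indep : ∃ φ : Measure (Bool → ℝ), IsProbabilityMeasure φ ∧
    P.map (fun p => (p.2.1, p.2.2)) = (P.map fun p => p.2.1).prod (Measure.pi fun _ => φ)
  pos : ∀ n : ℕ, 1 ≤ n → 0 ≤ ∫ p, (-p.2.1) ^ n ∂P
  intTheta : ∀ σ, Integrable (fun p => theta p σ) P
  intField : Integrable (fun h => h) η

/-- Average over a Poisson number of mean `c`. -/
noncomputable def poissonAvg (c : ℝ) (G : ℕ → ℝ) : ℝ :=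
  ∑' n : ℕ, Real.exp (-c) * c ^ n / n.factorial * G n

/-- The uniform law on `N` points. -/
noncomputable def unif (N : ℕ) : Measure (Fin N) := (N : ℝ≥0∞)⁻¹ • Measure.count

/-- The Hamiltonian of given clauses and fields. -/
noncomputable def hamiltonian {K N m : ℕ} (cl : Fin m → Table K × (Fin K → Fin N)) (h : Fin N → ℝ)
    (σ : Fin N → Bool) : ℝ :=
  ∑ k, (cl k).1 (fun j => σ ((cl k).2 j)) + ∑ i, h i * spin (σ i)

/-- The pressure. -/
noncomputable def pressure {K : ℕ} (lam : ℝ) (μ : Measure (Table K)) (η : Measure ℝ) (N : ℕ) : ℝ :=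
  1 / (N : ℝ) * poissonAvg (lam * N) fun m =>
    ∫ cl, ∫ h, Real.log (∑ σ, Real.exp (hamiltonian cl h σ))
      ∂Measure.pi (fun _ : Fin N => η)
      ∂Measure.pi fun _ : Fin m => μ.prod (Measure.pi fun _ : Fin K => unif N)

/-- The recursion `Y_{p-1} = (E_p Y_p ^ m_p) ^ (1 / m_p)` down to level zero. -/
noncomputable def down {Ω : Type} [MeasurableSpace Ω] (ν : Measure Ω) :
    (r : ℕ) → (Fin r → ℝ) → ((Fin (r + 1) → Ω) → ℝ) → Ω → ℝ
  | 0, _, Y => fun ω => Y fun _ => ω
  | r + 1, m, Y => down ν r (fun p => m p.castSucc) fun ω =>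
      (∫ ξ, Y (Fin.snoc ω ξ) ^ m (Fin.last r) ∂ν) ^ (1 / m (Fin.last r))

/-- The average `E log Y_0`. -/
noncomputable def trialAvg {Ω : Type} [MeasurableSpace Ω] (ν : Measure Ω) {r : ℕ} (m : Fin r → ℝ)
    (Y : (Fin (r + 1) → Ω) → ℝ) : ℝ :=
  ∫ ω, Real.log (down ν r m Y ω) ∂ν

/-- The probability of a spin under a message. -/
noncomputable def msgWeight (x : ℝ) (s : Bool) : ℝ := (1 + x * spin s) / 2

/-- The message of an index, made of that index's coordinates. -/
def msg {r : ℕ} {ι : Type} (x : (Fin (r + 1) → UI) → ℝ) (ω : Fin (r + 1) → ι → UI) (i : ι) : ℝ :=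
  x fun p => ω p i

/-- The random variable `U`. -/
noncomputable def trialU {K r c : ℕ} (x : (Fin (r + 1) → UI) → ℝ) (h : ℝ)
    (cl : Fin c → Table K × Fin K) (ω : Fin (r + 1) → Fin c × Fin K → UI) : ℝ :=
  ∑ ε : Bool, Real.exp (h * spin ε) * ∏ k, ∑ σ with σ (cl k).2 = ε,
    Real.exp ((cl k).1 σ) * ∏ j ∈ Finset.univ.erase (cl k).2, msgWeight (msg x ω (k, j)) (σ j)

/-- The random variable `V`. -/
noncomputable def trialV {K r c : ℕ} (x : (Fin (r + 1) → UI) → ℝ) (θs : Fin c → Table K)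
    (ω : Fin (r + 1) → Fin c × Fin K → UI) : ℝ :=
  ∏ k, ∑ σ, Real.exp (θs k σ) * ∏ j, msgWeight (msg x ω (k, j)) (σ j)

/-- The functional `T U - T V`. -/
noncomputable def trialValue {K : ℕ} (lam : ℝ) (μ : Measure (Table K)) (η : Measure ℝ) {r : ℕ}
    (m : Fin r → ℝ) (x : (Fin (r + 1) → UI) → ℝ) : ℝ :=
  poissonAvg (K * lam) (fun c => ∫ h, ∫ cl, trialAvg volume m (trialU x h cl)
      ∂(Measure.pi fun _ : Fin c => μ.prod (unif K)) ∂η) -
    poissonAvg (((K : ℝ) - 1) * lam) fun c => ∫ θs, trialAvg volume m (trialV x θs)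
      ∂Measure.pi fun _ : Fin c => μ

/-- All values of the trial functional, at every depth. -/
def trialValues {K : ℕ} (lam : ℝ) (μ : Measure (Table K)) (η : Measure ℝ) : Set ℝ :=
  {v | ∃ (r : ℕ) (m : Fin r → ℝ) (x : (Fin (r + 1) → UI) → ℝ), StrictMono m ∧
    (∀ p, 0 < m p ∧ m p < 1) ∧ Measurable x ∧ (∀ ω, |x ω| ≤ 1) ∧ v = trialValue lam μ η m x}

/-- Clause functions and fields bounded by `B`. -/
def BoundedModel {K : ℕ} (B : ℝ) (μ : Measure (Table K)) (η : Measure ℝ) : Prop :=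
  (∀ᵐ θ ∂μ, ∀ σ, |θ σ| ≤ B) ∧ ∀ᵐ h ∂η, |h| ≤ B

/-- Values of the trial functional come eventually below the pressure, up to any error. -/
def LowerBound {K : ℕ} (lam : ℝ) (μ : Measure (Table K)) (η : Measure ℝ) : Prop :=
  ∀ ε > 0, ∀ᶠ N in Filter.atTop, ∃ v ∈ trialValues lam μ η, v - ε ≤ pressure lam μ η N

end Vale.Agent.P168
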