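import Vale.Agent.P168.Defs

/-!
P168: finite marked Poisson configurations and their calculus.
-/

namespace Vale.Agent.P168

open MeasureTheory Finset
open scoped ENNReal

variable {M : Type} [MeasurableSpace M]

/-- A finite configuration of marks. -/
abbrev Cfg (M : Type) := Σ n : ℕ, Fin n → M

/-- The Poisson configuration of intensity `ν`. -/
noncomputable def pp (ν : Measure M) : Measure (Cfg M) :=
  Measure.sum fun n => ENNReal.ofReal (Real.exp (-ν.real Set.univ) / n.factorial) •
    (Measure.pi fun _ : Fin n => ν).map (Sigma.mk n)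

/-- One more mark. -/
def Cfg.cons (x : M) (ω : Cfg M) : Cfg M := ⟨ω.1 + 1, Fin.cons x ω.2⟩

/-- Two configurations together. -/
def Cfg.append (ω ω' : Cfg M) : Cfg M := ⟨ω.1 + ω'.1, Fin.append ω.2 ω'.2⟩

/-- A sum over the marks. -/
def Cfg.sum (φ : M → ℝ) (ω : Cfg M) : ℝ := ∑ i, φ (ω.2 i)

/-- Invariance under relabelling the marks. -/
def CfgSymm (F : Cfg M → ℝ) : Prop :=
  ∀ (n : ℕ) (e : Equiv.Perm (Fin n)) (v : Fin n → M), F ⟨n, v ∘ e⟩ = F ⟨n, v⟩

/-- One more mark changes `F` by at most `φ`. -/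
def CfgIncr (F : Cfg M → ℝ) (φ : M → ℝ) : Prop := ∀ x ω, |F (Cfg.cons x ω) - F ω| ≤ φ x

/-! ### Configurations -/

/-- The configuration without marks. -/
def Cfg.empty : Cfg M := ⟨0, Fin.elim0⟩

omit [MeasurableSpace M] in
lemma Cfg.eq_cons (n : ℕ) (v : Fin (n + 1) → M) :
    (⟨n + 1, v⟩ : Cfg M) = Cfg.cons (v 0) ⟨n, Fin.tail v⟩ := by
  simp only [Cfg.cons, Fin.cons_self_tail]

omit [MeasurableSpace M] in
/-- Invariant functions do not see a bijection of the marks. -/
lemma symm_eq {β : Type} {F : Cfg M → β}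
    (hs : ∀ (n : ℕ) (e : Equiv.Perm (Fin n)) (v : Fin n → M), F ⟨n, v ∘ e⟩ = F ⟨n, v⟩)
    {a b : Cfg M} (e : Fin a.1 ≃ Fin b.1) (he : ∀ i, a.2 i = b.2 (e i)) : F a = F b := by
  obtain ⟨n, v⟩ := a
  obtain ⟨m, w⟩ := b
  obtain rfl : n = m := by simpa using Fintype.card_congr e
  rw [← hs n e w]
  exact congrArg (fun u => F ⟨n, u⟩) (funext he)

omit [MeasurableSpace M] in
lemma Cfg.ext' {a b : Cfg M} (h : a.1 = b.1) (he : ∀ i, a.2 i = b.2 (Fin.cast h i)) : a = b := by
  obtain ⟨n, v⟩ := a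
  obtain ⟨m, w⟩ := b
  obtain rfl : n = m := h
  exact congrArg (Sigma.mk n) (funext fun i => by simpa using he i)

omit [MeasurableSpace M] in
lemma Cfg.sum_cons (φ : M → ℝ) (x : M) (ω : Cfg M) :
    Cfg.sum φ (Cfg.cons x ω) = φ x + Cfg.sum φ ω := by
  change ∑ i : Fin (ω.1 + 1), φ (Fin.cons (α := fun _ => M) x ω.2 i) = _
  simp [Fin.sum_univ_succ, Cfg.sum]

omit [MeasurableSpace M] in
lemma cfgSymm_sum (φ : M → ℝ) : CfgSymm (Cfg.sum φ) := fun _ e v =>
  Equiv.sum_comp e fun i => φ (v i)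

omit [MeasurableSpace M] in
lemma Cfg.empty_append (a : Cfg M) : Cfg.append a Cfg.empty = a :=
  Cfg.ext' (by simp [Cfg.append, Cfg.empty]) fun i => by
    change Fin.append a.2 (Fin.elim0 : Fin 0 → M) i = _
    exact congrFun (Fin.append_elim0 a.2) i

omit [MeasurableSpace M] in
lemma Cfg.cons_append (x : M) (a b : Cfg M) :
    Cfg.append (Cfg.cons x a) b = Cfg.cons x (Cfg.append a b) :=
  Cfg.ext' (by simp [Cfg.append, Cfg.cons]; omega) fun i => by
    change Fin.append (Fin.cons x a.2 : Fin (a.1 + 1) → M) b.2 i = _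
    rw [Fin.append_cons]
    rfl

/-- Extending a bijection of marks by one mark. -/
def consEquiv {n m : ℕ} (e : Fin n ≃ Fin m) : Fin (n + 1) ≃ Fin (m + 1) :=
  (finSuccEquiv n).trans (e.optionCongr.trans (finSuccEquiv m).symm)

section symm

variable {β : Type} {F : Cfg M → β}
  (hs : ∀ (n : ℕ) (e : Equiv.Perm (Fin n)) (v : Fin n → M), F ⟨n, v ∘ e⟩ = F ⟨n, v⟩)

omit [MeasurableSpace M] in
include hs in
lemma symm_cons (x : M) : ∀ (n : ℕ) (e : Equiv.Perm (Fin n)) (v : Fin n → M),
    F (Cfg.cons x ⟨n, v ∘ e⟩) = F (Cfg.cons x ⟨n, v⟩) := fun n e v =>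
  symm_eq hs (a := Cfg.cons x ⟨n, v ∘ e⟩) (b := Cfg.cons x ⟨n, v⟩) (consEquiv e) fun i => by
    refine Fin.cases ?_ (fun j => ?_) i
    · change x = (Fin.cons x v : Fin (n + 1) → M) ((finSuccEquiv n).symm (e.optionCongr (finSuccEquiv n 0)))
      simp
    · change (Fin.cons x (v ∘ e) : Fin (n + 1) → M) j.succ =
        (Fin.cons x v : Fin (n + 1) → M) ((finSuccEquiv n).symm (e.optionCongr (finSuccEquiv n j.succ)))
      simp

omit [MeasurableSpace M] in
include hs in
lemma symm_append_comm (a b : Cfg M) : F (Cfg.append a b) = F (Cfg.append b a) :=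
  symm_eq hs (a := Cfg.append a b) (b := Cfg.append b a) finAddFlip fun i => by
    refine Fin.addCases (fun j => ?_) (fun j => ?_) i
    · change Fin.append a.2 b.2 (Fin.castAdd b.1 j) = Fin.append b.2 a.2 (finAddFlip (Fin.castAdd b.1 j))
      rw [Fin.append_left, finAddFlip_apply_castAdd, Fin.append_right]
    · change Fin.append a.2 b.2 (Fin.natAdd a.1 j) = Fin.append b.2 a.2 (finAddFlip (Fin.natAdd a.1 j))
      rw [Fin.append_right, finAddFlip_apply_natAdd, Fin.append_left]

omit [MeasurableSpace M] in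
include hs in
lemma symm_append_cons (x : M) (a b : Cfg M) :
    F (Cfg.append a (Cfg.cons x b)) = F (Cfg.cons x (Cfg.append a b)) := by
  rw [symm_append_comm hs, Cfg.cons_append]
  exact (symm_append_comm (F := fun ω => F (Cfg.cons x ω)) (symm_cons hs x) a b).symm

omit [MeasurableSpace M] in
include hs in
lemma symm_append_left (b : Cfg M) : ∀ (n : ℕ) (e : Equiv.Perm (Fin n)) (v : Fin n → M),
    F (Cfg.append ⟨n, v ∘ e⟩ b) = F (Cfg.append ⟨n, v⟩ b) := fun n e v =>
  symm_eq hs (a := Cfg.append ⟨n, v ∘ e⟩ b) (b := Cfg.append ⟨n, v⟩ b)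
    (finSumFinEquiv.symm.trans ((e.sumCongr (Equiv.refl _)).trans finSumFinEquiv)) fun i => by
    refine Fin.addCases (fun j => ?_) (fun j => ?_) i
    · change Fin.append (v ∘ e) b.2 (Fin.castAdd b.1 j) = Fin.append v b.2
        (finSumFinEquiv ((e.sumCongr (Equiv.refl _)) (finSumFinEquiv.symm (Fin.castAdd b.1 j))))
      rw [finSumFinEquiv_symm_apply_castAdd, Equiv.sumCongr_apply, Sum.map_inl,
        finSumFinEquiv_apply_left, Fin.append_left, Fin.append_left]
      rfl
    · change Fin.append (v ∘ e) b.2 (Fin.natAdd n j) = Fin.append v b.2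
        (finSumFinEquiv ((e.sumCongr (Equiv.refl _)) (finSumFinEquiv.symm (Fin.natAdd n j))))
      rw [finSumFinEquiv_symm_apply_natAdd, Equiv.sumCongr_apply, Sum.map_inr,
        finSumFinEquiv_apply_right, Fin.append_right, Fin.append_right]
      rfl

end symm

/-! ### Measurability -/

lemma measurable_cfg {β : Type} [MeasurableSpace β] {f : Cfg M → β}
    (h : ∀ n, Measurable fun v : Fin n → M => f ⟨n, v⟩) : Measurable f :=
  fun _ hs => MeasurableSpace.measurableSet_iInf.2 fun n => h n hs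

lemma measurable_mk (n : ℕ) : Measurable fun v : Fin n → M => (⟨n, v⟩ : Cfg M) :=
  fun _ hs => MeasurableSpace.measurableSet_iInf.1 hs n

lemma embedding_mk (n : ℕ) : MeasurableEmbedding fun v : Fin n → M => (⟨n, v⟩ : Cfg M) := by
  have hinj : Function.Injective fun v : Fin n → M => (⟨n, v⟩ : Cfg M) := fun a b h => by
    simpa using h
  refine ⟨hinj, measurable_mk n, fun s hs => ?_⟩
  refine MeasurableSpace.measurableSet_iInf.2 fun m => ?_
  show MeasurableSet ((fun w : Fin m → M => (⟨m, w⟩ : Cfg M)) ⁻¹'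
    ((fun v : Fin n → M => (⟨n, v⟩ : Cfg M)) '' s))
  rcases eq_or_ne m n with rfl | hm
  · rwa [Set.preimage_image_eq _ hinj]
  · convert MeasurableSet.empty
    rw [Set.eq_empty_iff_forall_notMem]
    rintro v ⟨w, -, hw⟩
    exact hm (congrArg Sigma.fst hw).symm

lemma measurable_prod_cfg {α β : Type} [MeasurableSpace α] [MeasurableSpace β]
    {f : α × Cfg M → β} (h : ∀ n, Measurable fun p : α × (Fin n → M) => f (p.1, ⟨n, p.2⟩)) :
    Measurable f := by
  intro s hs
  classical
  have hfst : Measurable fun ω : Cfg M => ω.1 := measurable_cfg fun n => measurable_const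
  have hset : ∀ n, MeasurableSet {p : α × Cfg M | p.2.1 = n} := fun n =>
    (hfst.comp measurable_snd) (measurableSet_singleton n)
  have e : f ⁻¹' s = ⋃ n, ({p : α × Cfg M | p.2.1 = n} ∩ f ⁻¹' s) := by
    ext p; simp
  rw [e]
  refine MeasurableSet.iUnion fun n => ?_
  rcases isEmpty_or_nonempty (Fin n → M) with hE | ⟨⟨v0⟩⟩
  · convert MeasurableSet.empty
    rw [Set.eq_empty_iff_forall_notMem]
    rintro ⟨a, m, v⟩ ⟨hm, -⟩
    obtain rfl : m = n := hm
    exact hE.false v
  · let g : Cfg M → Fin n → M := fun ω i =>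
      if h : (i : ℕ) < ω.1 then ω.2 ⟨i, h⟩ else v0 i
    have hg : Measurable g := measurable_cfg fun m => measurable_pi_lambda _ fun i => by
      by_cases hi : (i : ℕ) < m
      · simp only [g, hi, dite_true]; exact measurable_pi_apply (⟨i, hi⟩ : Fin m)
      · simp only [g, hi, dite_false]; exact measurable_const
    have hm : Measurable fun p : α × Cfg M => f (p.1, ⟨n, g p.2⟩) :=
      (h n).comp (measurable_fst.prodMk (hg.comp measurable_snd))
    convert (hset n).inter (hm hs) using 1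
    ext ⟨a, m, v⟩
    simp only [Set.mem_inter_iff, Set.mem_ofPred_eq, Set.mem_preimage]
    refine and_congr_right fun hmn => ?_
    subst hmn
    have : g ⟨m, v⟩ = v := funext fun i => by simp [g]
    rw [this]

lemma measurable_cons : Measurable fun p : M × Cfg M => Cfg.cons p.1 p.2 :=
  measurable_prod_cfg fun n => (measurable_mk (n + 1)).comp
    (measurable_pi_lambda _ fun i => by
      refine Fin.cases ?_ (fun j => ?_) i
      · simpa using measurable_fst
      · simp only [Fin.cons_succ]; exact (measurable_pi_apply j).comp measurable_snd)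

lemma measurable_append : Measurable fun p : Cfg M × Cfg M => Cfg.append p.1 p.2 := by
  refine measurable_prod_cfg fun n => ?_
  have h : Measurable fun p : (Fin n → M) × Cfg M => Cfg.append p.2 ⟨n, p.1⟩ :=
    measurable_prod_cfg fun m => (measurable_mk (m + n)).comp
      (measurable_pi_lambda _ fun i => by
        refine Fin.addCases (fun j => ?_) (fun j => ?_) i
        · simp only [Fin.append_left]; exact (measurable_pi_apply j).comp measurable_snd
        · simp only [Fin.append_right]; exact (measurable_pi_apply j).comp measurable_fst)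
  exact h.comp measurable_swap

lemma measurable_cfgSum {φ : M → ℝ} (hφ : Measurable φ) : Measurable (Cfg.sum φ) :=
  measurable_cfg fun n => by
    simp only [Cfg.sum]
    exact Finset.measurable_sum (f := fun i (v : Fin n → M) => φ (v i)) univ
      fun i _ => hφ.comp (measurable_pi_apply i)

/-! ### Integrals over configurations -/

/-- The weight of `n` marks. -/
noncomputable def ppW (ν : Measure M) (n : ℕ) : ℝ≥0∞ :=
  ENNReal.ofReal (Real.exp (-ν.real Set.univ) / n.factorial)

lemma lintegral_pp (ν : Measure M) (F : Cfg M → ℝ≥0∞) :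
    ∫⁻ ω, F ω ∂pp ν = ∑' n, ppW ν n * ∫⁻ v, F ⟨n, v⟩ ∂Measure.pi fun _ : Fin n => ν := by
  rw [pp, lintegral_sum_measure]
  refine tsum_congr fun n => ?_
  rw [lintegral_smul_measure, (embedding_mk n).lintegral_map]
  rfl

theorem isProbabilityMeasure_pp (ν : Measure M) [IsFiniteMeasure ν] :
    IsProbabilityMeasure (pp ν) := by
  refine ⟨?_⟩
  set Λ := ν.real Set.univ with hΛ
  have hΛ0 : 0 ≤ Λ := measureReal_nonneg
  have hu : ν Set.univ = ENNReal.ofReal Λ := (ofReal_measureReal (measure_ne_top ν _)).symm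
  have h : HasSum (fun n : ℕ => Real.exp (-Λ) * (Λ ^ n / n.factorial)) 1 := by
    have h := (NormedSpace.expSeries_div_hasSum_exp (Λ : ℝ)).mul_left (Real.exp (-Λ))
    rwa [← Real.exp_eq_exp_ℝ, ← Real.exp_add, neg_add_cancel, Real.exp_zero] at h
  have hsum := lintegral_pp ν fun _ => 1
  simp only [lintegral_const, one_mul] at hsum
  rw [hsum]
  calc ∑' n, ppW ν n * (Measure.pi fun _ : Fin n => ν) Set.univ
      = ∑' n, ENNReal.ofReal (Real.exp (-Λ) * (Λ ^ n / n.factorial)) := by
        refine tsum_congr fun n => ?_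
        rw [Measure.pi_univ, prod_const, card_univ, Fintype.card_fin, hu, ppW, ← hΛ,
          ← ENNReal.ofReal_pow hΛ0, ← ENNReal.ofReal_mul (by positivity)]
        ring_nf
    _ = 1 := by
        rw [← ENNReal.ofReal_tsum_of_nonneg (fun n => by positivity) h.summable, h.tsum_eq,
          ENNReal.ofReal_one]

/-- The configuration of intensity `c` times a law. -/
theorem integral_pp_smul (ν : Measure M) [IsProbabilityMeasure ν] {c : ℝ} (hc : 0 ≤ c)
    {F : Cfg M → ℝ} (hF : Integrable F (pp (ENNReal.ofReal c • ν))) :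
    ∫ ω, F ω ∂pp (ENNReal.ofReal c • ν) =
      poissonAvg c fun n => ∫ v, F ⟨n, v⟩ ∂Measure.pi fun _ : Fin n => ν := by
  rw [pp] at hF ⊢
  rw [integral_sum_measure hF, poissonAvg]
  refine tsum_congr fun n => ?_
  have hpi : (Measure.pi fun _ : Fin n => ENNReal.ofReal c • ν) =
      ENNReal.ofReal (c ^ n) • Measure.pi fun _ : Fin n => ν := by
    have : IsFiniteMeasure (ENNReal.ofReal c • ν) := ν.smul_finite ENNReal.ofReal_ne_top
    refine Measure.pi_eq (μ := fun _ : Fin n => ENNReal.ofReal c • ν) fun s _ => ?_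
    simp only [Measure.smul_apply, smul_eq_mul, Measure.pi_pi]
    rw [prod_mul_distrib, prod_const, card_univ, Fintype.card_fin, ENNReal.ofReal_pow hc]
  have hreal : (ENNReal.ofReal c • ν).real Set.univ = c := by
    simp [Measure.real, ENNReal.toReal_ofReal hc]
  rw [integral_smul_measure, (embedding_mk n).integral_map, hpi, integral_smul_measure, hreal,
    ENNReal.toReal_ofReal (by positivity), ENNReal.toReal_ofReal (by positivity), smul_eq_mul,
    smul_eq_mul]
  ring

lemma measurePreserving_cons (ν : Measure M) [IsFiniteMeasure ν] (n : ℕ) :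
    MeasurePreserving (fun p : M × (Fin n → M) => (Fin.cons p.1 p.2 : Fin (n + 1) → M))
      (ν.prod (Measure.pi fun _ : Fin n => ν)) (Measure.pi fun _ : Fin (n + 1) => ν) := by
  have h := (measurePreserving_piFinSuccAbove (fun _ : Fin (n + 1) => ν) 0).symm
  convert h using 2 with p
  exact (Fin.insertNth_zero' p.1 p.2).symm

lemma measurePreserving_perm (ν : Measure M) [IsFiniteMeasure ν] {n : ℕ} (e : Equiv.Perm (Fin n)) :
    MeasurePreserving (fun v : Fin n → M => v ∘ e) (Measure.pi fun _ => ν)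
      (Measure.pi fun _ => ν) := by
  convert measurePreserving_piCongrLeft (fun _ : Fin n => ν) e.symm using 2 with v
  funext i
  simp [MeasurableEquiv.piCongrLeft, Equiv.piCongrLeft_apply_eq_cast]

lemma lintegral_pi_succ (ν : Measure M) [IsFiniteMeasure ν] {n : ℕ}
    {g : (Fin (n + 1) → M) → ℝ≥0∞} (hg : Measurable g) :
    ∫⁻ v, g v ∂(Measure.pi fun _ : Fin (n + 1) => ν) =
      ∫⁻ x, ∫⁻ w, g (Fin.cons x w) ∂(Measure.pi fun _ : Fin n => ν) ∂ν := by
  rw [← (measurePreserving_cons ν n).lintegral_comp hg]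
  exact lintegral_prod _ (hg.comp (measurePreserving_cons ν n).measurable).aemeasurable

/-- Mecke's equation for nonnegative functions. -/
lemma lintegral_mecke (ν : Measure M) [IsFiniteMeasure ν] {G : M → Cfg M → ℝ≥0∞}
    (hG : Measurable (Function.uncurry G))
    (hs : ∀ x (n : ℕ) (e : Equiv.Perm (Fin n)) (v : Fin n → M), G x ⟨n, v ∘ e⟩ = G x ⟨n, v⟩) :
    ∫⁻ ω, ∑ i, G (ω.2 i) ω ∂pp ν = ∫⁻ x, ∫⁻ ω, G x (Cfg.cons x ω) ∂pp ν ∂ν := by
  have hm : ∀ n, Measurable fun p : M × (Fin n → M) => G p.1 (Cfg.cons p.1 ⟨n, p.2⟩) := fun n =>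
    hG.comp (measurable_fst.prodMk (measurable_cons.comp
      (measurable_fst.prodMk ((measurable_mk n).comp measurable_snd))))
  have hi : ∀ (n : ℕ) (i : Fin n), Measurable fun v : Fin n → M => G (v i) ⟨n, v⟩ := fun n i =>
    hG.comp ((measurable_pi_apply i).prodMk (measurable_mk n))
  simp only [lintegral_pp ν]
  rw [lintegral_tsum fun n => ((hm n).lintegral_prod_right'.const_mul _).aemeasurable,
    tsum_eq_zero_add' ENNReal.summable]
  simp only [univ_eq_empty, sum_empty, lintegral_zero, mul_zero, zero_add]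
  refine tsum_congr fun n => ?_
  have hperm : ∀ i : Fin (n + 1),
      ∫⁻ v, G (v i) ⟨n + 1, v⟩ ∂(Measure.pi fun _ : Fin (n + 1) => ν) =
        ∫⁻ v, G (v 0) ⟨n + 1, v⟩ ∂(Measure.pi fun _ : Fin (n + 1) => ν) := fun i => by
    rw [← (measurePreserving_perm ν (Equiv.swap 0 i)).lintegral_comp (hi _ i)]
    simp only [Function.comp_apply, Equiv.swap_apply_right, hs]
  have hw : ppW ν (n + 1) * (n + 1 : ℕ) = ppW ν n := by
    rw [ppW, ppW, ← ENNReal.ofReal_natCast, ← ENNReal.ofReal_mul (by positivity)]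
    congr 1
    push_cast [Nat.factorial_succ]
    field_simp
  change ppW ν (n + 1) * (∫⁻ v, ∑ i : Fin (n + 1), G (v i) ⟨n + 1, v⟩
    ∂Measure.pi fun _ : Fin (n + 1) => ν) = _
  rw [lintegral_finsetSum (f := fun i (v : Fin (n + 1) → M) => G (v i) ⟨n + 1, v⟩) _ (fun i _ => hi _ i),
    sum_congr rfl (fun i _ => hperm i), sum_const,
    card_univ, Fintype.card_fin, nsmul_eq_mul, ← mul_assoc, hw, lintegral_pi_succ ν (hi _ 0),
    lintegral_const_mul _ (hm n).lintegral_prod_right']
  simp only [Fin.cons_zero]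
  rfl

/-- A sum over the marks has the mean given by the intensity. -/
lemma lintegral_cfgSum (ν : Measure M) [IsFiniteMeasure ν] {f : M → ℝ≥0∞} (hf : Measurable f) :
    ∫⁻ ω, ∑ i, f (ω.2 i) ∂pp ν = ∫⁻ x, f x ∂ν := by
  have := isProbabilityMeasure_pp ν
  rw [lintegral_mecke ν (G := fun x _ => f x) (hf.comp measurable_fst) fun _ _ _ _ => rfl]
  simp

lemma measurable_pick {G : M → Cfg M → ℝ} (hG : Measurable (Function.uncurry G)) :
    Measurable fun ω : Cfg M => ∑ i, G (ω.2 i) ω :=
  measurable_cfg fun n => Finset.measurable_sum (f := fun i (v : Fin n → M) => G (v i) ⟨n, v⟩) univ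
    fun i _ => hG.comp ((measurable_pi_apply i).prodMk (measurable_mk n))

lemma integrable_cfgSum (ν : Measure M) [IsFiniteMeasure ν] {φ : M → ℝ} (hφ : Integrable φ ν) :
    Integrable (Cfg.sum φ) (pp ν) := by
  obtain ⟨ψ, hψm, hψ⟩ := hφ.1
  have hψi : Integrable ψ ν := hφ.congr hψ
  have hae : Cfg.sum φ =ᵐ[pp ν] Cfg.sum ψ := by
    obtain ⟨t, htsub, htm, ht0⟩ := exists_measurable_superset_of_null hψ
    have h0 := lintegral_cfgSum ν (f := t.indicator fun _ => 1) (measurable_one.indicator htm)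
    rw [lintegral_indicator_const htm, one_mul, ht0, lintegral_eq_zero_iff] at h0
    · filter_upwards [h0] with ω hω
      refine Finset.sum_congr rfl fun i _ => ?_
      simp only [Pi.zero_apply, Finset.sum_eq_zero_iff, mem_univ, true_implies] at hω
      by_contra hne
      have := hω i
      rw [Set.indicator_of_mem (htsub hne)] at this
      exact one_ne_zero this
    · exact measurable_cfg fun n => Finset.measurable_sum
        (f := fun i (v : Fin n → M) => t.indicator (fun _ => (1 : ℝ≥0∞)) (v i)) univ fun i _ =>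
        (measurable_const.indicator htm).comp (measurable_pi_apply i)
  refine Integrable.congr ⟨(measurable_cfgSum hψm.measurable).aestronglyMeasurable, ?_⟩ hae.symm
  rw [HasFiniteIntegral]
  refine lt_of_le_of_lt (lintegral_mono fun ω => enorm_sum_le _ _) ?_
  rw [lintegral_cfgSum ν hψm.measurable.enorm]
  exact hψi.2

lemma mecke_nonneg (ν : Measure M) [IsFiniteMeasure ν] {G : M → Cfg M → ℝ}
    (hG : Measurable (Function.uncurry G)) (h0 : ∀ x ω, 0 ≤ G x ω) (hs : ∀ x, CfgSymm (G x))
    {φ : M → ℝ} (hb : ∀ x ω, |G x ω| ≤ φ x) :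
    ∫ ω, ∑ i, G (ω.2 i) ω ∂pp ν = ∫ x, ∫ ω, G x (Cfg.cons x ω) ∂pp ν ∂ν := by
  have := isProbabilityMeasure_pp ν
  have hc : Measurable fun p : M × Cfg M => G p.1 (Cfg.cons p.1 p.2) :=
    hG.comp (measurable_fst.prodMk measurable_cons)
  rw [integral_eq_lintegral_of_nonneg_ae (Filter.Eventually.of_forall fun ω => sum_nonneg fun i _ => h0 _ _)
    (measurable_pick hG).aestronglyMeasurable,
    integral_eq_lintegral_of_nonneg_ae (Filter.Eventually.of_forall fun x => integral_nonneg fun ω => h0 _ _)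
      hc.stronglyMeasurable.integral_prod_right'.aestronglyMeasurable]
  congr 1
  have e : ∀ x, ENNReal.ofReal (∫ ω, G x (Cfg.cons x ω) ∂pp ν) =
      ∫⁻ ω, ENNReal.ofReal (G x (Cfg.cons x ω)) ∂pp ν := fun x =>
    ofReal_integral_eq_lintegral_ofReal
      (Integrable.of_bound (hc.comp measurable_prodMk_left).aestronglyMeasurable (φ x)
        (Filter.Eventually.of_forall fun ω => (Real.norm_eq_abs _).le.trans (hb _ _)))
      (Filter.Eventually.of_forall fun ω => h0 _ _)
  simp only [e, ENNReal.ofReal_sum_of_nonneg fun i _ => h0 _ _]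
  exact lintegral_mecke ν (G := fun x ω => ENNReal.ofReal (G x ω)) hG.ennreal_ofReal
    fun x n e v => by simp only [hs x n e v]

/-- Mecke's equation. -/
theorem mecke (ν : Measure M) [IsFiniteMeasure ν] {G : M → Cfg M → ℝ}
    (hG : Measurable (Function.uncurry G)) (hs : ∀ x, CfgSymm (G x)) {φ : M → ℝ}
    (hφ : Integrable φ ν) (hb : ∀ x ω, |G x ω| ≤ φ x) :
    ∫ ω, ∑ i, G (ω.2 i) ω ∂pp ν = ∫ x, ∫ ω, G x (Cfg.cons x ω) ∂pp ν ∂ν := by
  have := isProbabilityMeasure_pp ν
  set P := fun x ω => max (G x ω) 0 with hP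
  set Q := fun x ω => max (-G x ω) 0 with hQ
  have hPb : ∀ x ω, |P x ω| ≤ φ x := fun x ω => by
    rw [hP, abs_of_nonneg (le_max_right _ _)]
    exact max_le ((le_abs_self _).trans (hb x ω)) ((abs_nonneg _).trans (hb x ω))
  have hQb : ∀ x ω, |Q x ω| ≤ φ x := fun x ω => by
    rw [hQ, abs_of_nonneg (le_max_right _ _)]
    exact max_le ((neg_le_abs _).trans (hb x ω)) ((abs_nonneg _).trans (hb x ω))
  have e : ∀ x ω, G x ω = P x ω - Q x ω := fun x ω => (max_zero_sub_eq_self _).symm
  have hPm : Measurable (Function.uncurry P) := hG.max measurable_const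
  have hQm : Measurable (Function.uncurry Q) := hG.neg.max measurable_const
  have iSum : ∀ {H : M → Cfg M → ℝ}, Measurable (Function.uncurry H) → (∀ x ω, |H x ω| ≤ φ x) →
      Integrable (fun ω => ∑ i, H (ω.2 i) ω) (pp ν) := fun {H} hH hHb =>
    (integrable_cfgSum ν hφ).mono' (measurable_pick hH).aestronglyMeasurable
      (Filter.Eventually.of_forall fun ω => (Real.norm_eq_abs _).le.trans
        ((abs_sum_le_sum_abs _ _).trans (sum_le_sum fun i _ => hHb _ _)))
  have hcH : ∀ {H : M → Cfg M → ℝ}, Measurable (Function.uncurry H) →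
      Measurable fun p : M × Cfg M => H p.1 (Cfg.cons p.1 p.2) := fun hH =>
    hH.comp (measurable_fst.prodMk measurable_cons)
  have iIn : ∀ {H : M → Cfg M → ℝ}, Measurable (Function.uncurry H) → (∀ x ω, |H x ω| ≤ φ x) →
      ∀ x, Integrable (fun ω => H x (Cfg.cons x ω)) (pp ν) := fun {H} hH hHb x =>
    Integrable.of_bound ((hcH hH).comp measurable_prodMk_left).aestronglyMeasurable (φ x)
      (Filter.Eventually.of_forall fun ω => (Real.norm_eq_abs _).le.trans (hHb _ _))
  have iOut : ∀ {H : M → Cfg M → ℝ}, Measurable (Function.uncurry H) → (∀ x ω, |H x ω| ≤ φ x) →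
      Integrable (fun x => ∫ ω, H x (Cfg.cons x ω) ∂pp ν) ν := fun {H} hH hHb =>
    hφ.mono' (hcH hH).stronglyMeasurable.integral_prod_right'.aestronglyMeasurable
      (Filter.Eventually.of_forall fun x => by
        simpa using norm_integral_le_of_norm_le_const (μ := pp ν) (f := fun ω => H x (Cfg.cons x ω))
          (C := φ x) (Filter.Eventually.of_forall fun ω => (Real.norm_eq_abs _).le.trans (hHb _ _)))
  simp only [e, sum_sub_distrib]
  rw [integral_sub (iSum hPm hPb) (iSum hQm hQb),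
    mecke_nonneg ν hPm (fun _ _ => le_max_right _ _) (fun x n p v => by simp only [hP, hs x n p v]) hPb,
    mecke_nonneg ν hQm (fun _ _ => le_max_right _ _) (fun x n p v => by simp only [hQ, hs x n p v]) hQb,
    ← integral_sub (iOut hPm hPb) (iOut hQm hQb)]
  exact integral_congr_ae (Filter.Eventually.of_forall fun x =>
    (integral_sub (iIn hPm hPb x) (iIn hQm hQb x)).symm)

/-- A sum over the marks has the mean given by the intensity. -/
theorem integral_sum (ν : Measure M) [IsFiniteMeasure ν] {φ : M → ℝ} (hφ : Integrable φ ν) :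
    Integrable (Cfg.sum φ) (pp ν) ∧ ∫ ω, Cfg.sum φ ω ∂pp ν = ∫ x, φ x ∂ν := by
  have := isProbabilityMeasure_pp ν
  refine ⟨integrable_cfgSum ν hφ, ?_⟩
  obtain ⟨ψ, hψm, hψ⟩ := hφ.1
  have hψi : Integrable ψ ν := hφ.congr hψ
  have hd : Integrable (fun x => φ x - ψ x) ν := hφ.sub hψi
  have h1 := mecke ν (G := fun x _ => ψ x) (φ := fun x => |ψ x|)
    (hψm.measurable.comp measurable_fst) (fun _ _ _ _ => rfl) hψi.abs (fun _ _ => le_rfl)
  simp only [integral_const, probReal_univ, one_smul] at h1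
  rw [integral_congr_ae hψ, ← h1]
  refine integral_congr_ae ?_
  obtain ⟨t, htsub, htm, ht0⟩ := exists_measurable_superset_of_null hψ
  have h0 := lintegral_cfgSum ν (f := t.indicator fun _ => 1) (measurable_one.indicator htm)
  rw [lintegral_indicator_const htm, one_mul, ht0, lintegral_eq_zero_iff] at h0
  · filter_upwards [h0] with ω hω
    refine Finset.sum_congr rfl fun i _ => ?_
    simp only [Pi.zero_apply, Finset.sum_eq_zero_iff, mem_univ, true_implies] at hω
    by_contra hne
    have := hω i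
    rw [Set.indicator_of_mem (htsub hne)] at this
    exact one_ne_zero this
  · exact measurable_cfg fun n => Finset.measurable_sum
      (f := fun i (v : Fin n → M) => t.indicator (fun _ => (1 : ℝ≥0∞)) (v i)) univ fun i _ =>
      (measurable_const.indicator htm).comp (measurable_pi_apply i)

/-! ### Superposition -/

/-- The average over `i` marks of one law and `j` of another. -/
noncomputable def pairInt (μ ν : Measure M) (G : Cfg M → ℝ≥0∞) (i j : ℕ) : ℝ≥0∞ :=
  ∫⁻ v, ∫⁻ w, G (Cfg.append ⟨i, v⟩ ⟨j, w⟩) ∂(Measure.pi fun _ : Fin j => ν)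
    ∂Measure.pi fun _ : Fin i => μ

lemma lintegral_pi_add (μ ν : Measure M) [IsFiniteMeasure μ] [IsFiniteMeasure ν] :
    ∀ (n : ℕ) (G : Cfg M → ℝ≥0∞), Measurable G →
      (∀ (n : ℕ) (e : Equiv.Perm (Fin n)) (v : Fin n → M), G ⟨n, v ∘ e⟩ = G ⟨n, v⟩) →
      ∫⁻ v, G ⟨n, v⟩ ∂(Measure.pi fun _ : Fin n => μ + ν) =
        ∑ i ∈ range (n + 1), (n.choose i) • pairInt μ ν G i (n - i)
  | 0, G, _, _ => by
    simp only [zero_add, range_one, sum_singleton, Nat.choose_self, one_smul]
    change ∫⁻ v, G ⟨0, v⟩ ∂(Measure.pi fun _ : Fin 0 => μ + ν) = pairInt μ ν G 0 0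
    simp only [pairInt]
    rw [Measure.pi_of_empty (fun _ : Fin 0 => μ + ν), Measure.pi_of_empty (fun _ : Fin 0 => μ),
      Measure.pi_of_empty (fun _ : Fin 0 => ν)]
    simp only [lintegral_dirac]
    exact congrArg G (Cfg.ext' rfl fun i => i.elim0)
  | n + 1, G, hG, hs => by
    have hGx : ∀ x, Measurable fun ω => G (Cfg.cons x ω) := fun x =>
      hG.comp (measurable_cons.comp measurable_prodMk_left)
    have hm : ∀ i j, Measurable fun p : (M × (Fin i → M)) × (Fin j → M) =>
        G (Cfg.cons p.1.1 (Cfg.append ⟨i, p.1.2⟩ ⟨j, p.2⟩)) := fun i j =>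
      hG.comp (measurable_cons.comp ((measurable_fst.comp measurable_fst).prodMk
        (measurable_append.comp (((measurable_mk i).comp (measurable_snd.comp measurable_fst)).prodMk
          ((measurable_mk j).comp measurable_snd)))))
    have hmu : ∀ i j, ∫⁻ x, pairInt μ ν (fun ω => G (Cfg.cons x ω)) i j ∂μ =
        pairInt μ ν G (i + 1) j := by
      intro i j
      have h1 : Measurable fun v : Fin (i + 1) → M =>
          ∫⁻ w, G (Cfg.append ⟨i + 1, v⟩ ⟨j, w⟩) ∂(Measure.pi fun _ : Fin j => ν) :=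
        Measurable.lintegral_prod_right' (f := fun p : (Fin (i + 1) → M) × (Fin j → M) =>
            G (Cfg.append ⟨i + 1, p.1⟩ ⟨j, p.2⟩))
          (hG.comp (measurable_append.comp (((measurable_mk _).comp measurable_fst).prodMk
            ((measurable_mk j).comp measurable_snd))))
      simp only [pairInt]
      rw [lintegral_pi_succ μ h1]
      simp only [← Cfg.cons_append]
      rfl
    have hnu : ∀ i j, ∫⁻ x, pairInt μ ν (fun ω => G (Cfg.cons x ω)) i j ∂ν =
        pairInt μ ν G i (j + 1) := by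
      intro i j
      simp only [pairInt]
      rw [lintegral_lintegral_swap (hm i j).lintegral_prod_right'.aemeasurable]
      refine lintegral_congr fun v => ?_
      rw [lintegral_pi_succ ν (g := fun w => G (Cfg.append ⟨i, v⟩ ⟨j + 1, w⟩))
        (hG.comp (measurable_append.comp (measurable_const.prodMk (measurable_mk _))))]
      refine lintegral_congr fun x => lintegral_congr fun w => ?_
      exact (symm_append_cons hs x ⟨i, v⟩ ⟨j, w⟩).symm
    rw [lintegral_pi_succ (μ + ν) (g := fun v => G ⟨n + 1, v⟩) (hG.comp (measurable_mk _))]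
    have e : ∀ x, ∫⁻ w, G ⟨n + 1, Fin.cons x w⟩
        ∂(Measure.pi fun _ : Fin n => μ + ν) =
          ∑ i ∈ range (n + 1), (n.choose i) • pairInt μ ν (fun ω => G (Cfg.cons x ω)) i (n - i) :=
      fun x => lintegral_pi_add μ ν n _ (hGx x) (symm_cons hs x)
    have hmx : ∀ i j, Measurable fun x => pairInt μ ν (fun ω => G (Cfg.cons x ω)) i j := fun i j =>
      (hm i j).lintegral_prod_right'.lintegral_prod_right'
    have eS : ∀ ρ : Measure M, ∫⁻ x, ∑ i ∈ range (n + 1),
        (n.choose i) • pairInt μ ν (fun ω => G (Cfg.cons x ω)) i (n - i) ∂ρ =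
          ∑ i ∈ range (n + 1), (n.choose i) • ∫⁻ x, pairInt μ ν (fun ω => G (Cfg.cons x ω)) i (n - i) ∂ρ :=
      fun ρ => by
        simp only [nsmul_eq_mul]
        rw [lintegral_finsetSum _ fun i _ => (hmx i _).const_mul _]
        exact sum_congr rfl fun i _ => lintegral_const_mul _ (hmx _ _)
    simp only [e, lintegral_add_measure, eS, hmu, hnu]
    simp only [smul_add, sum_add_distrib]
    rw [Finset.sum_choose_succ_nsmul (fun i j => pairInt μ ν G i j) n]
    refine (add_comm _ _).trans ?_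
    congr 1
    exact sum_congr rfl fun i hi => by
      rw [Nat.sub_add_comm (Nat.lt_succ_iff.1 (mem_range.1 hi))]

/-- Superposition for nonnegative functions. -/
lemma lintegral_pp_add (μ ν : Measure M) [IsFiniteMeasure μ] [IsFiniteMeasure ν]
    {G : Cfg M → ℝ≥0∞} (hG : Measurable G)
    (hs : ∀ (n : ℕ) (e : Equiv.Perm (Fin n)) (v : Fin n → M), G ⟨n, v ∘ e⟩ = G ⟨n, v⟩) :
    ∫⁻ ω, G ω ∂pp (μ + ν) = ∫⁻ a, ∫⁻ b, G (Cfg.append a b) ∂pp ν ∂pp μ := by
  have hj : ∀ i j, Measurable fun v : Fin i → M =>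
      ∫⁻ w, G (Cfg.append ⟨i, v⟩ ⟨j, w⟩) ∂(Measure.pi fun _ : Fin j => ν) := fun i j =>
    Measurable.lintegral_prod_right'
      (f := fun p : (Fin i → M) × (Fin j → M) => G (Cfg.append ⟨i, p.1⟩ ⟨j, p.2⟩))
      (hG.comp (measurable_append.comp (((measurable_mk i).comp measurable_fst).prodMk
        ((measurable_mk j).comp measurable_snd))))
  simp only [lintegral_pp]
  simp only [lintegral_tsum fun j => ((hj _ j).const_mul _).aemeasurable,
    lintegral_const_mul _ (hj _ _)]
  simp only [lintegral_pi_add μ ν _ G hG hs]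
  change ∑' n, ppW (μ + ν) n * ∑ i ∈ range (n + 1), (n.choose i) • pairInt μ ν G i (n - i) =
    ∑' i, ppW μ i * ∑' j, ppW ν j * pairInt μ ν G i j
  simp only [← ENNReal.tsum_mul_left]
  rw [← ENNReal.tsum_prod, ← Finset.HasAntidiagonal.sigmaAntidiagonalEquivProd.tsum_eq, ENNReal.tsum_sigma']
  refine tsum_congr fun n => ?_
  change _ = ∑' b : ↥(antidiagonal n), (fun p : ℕ × ℕ => ppW μ p.1 * (ppW ν p.2 * pairInt μ ν G p.1 p.2)) b.1
  rw [Finset.tsum_subtype (antidiagonal n) (fun p : ℕ × ℕ => ppW μ p.1 * (ppW ν p.2 * pairInt μ ν G p.1 p.2)),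
    Finset.Nat.sum_antidiagonal_eq_sum_range_succ
      (fun i j => ppW μ i * (ppW ν j * pairInt μ ν G i j)) n, mul_sum]
  refine sum_congr rfl fun i hi => ?_
  have hin : i ≤ n := Nat.lt_succ_iff.1 (mem_range.1 hi)
  rw [nsmul_eq_mul, ← mul_assoc, ← mul_assoc]
  congr 1
  simp only [ppW]
  rw [← ENNReal.ofReal_natCast, ← ENNReal.ofReal_mul (by positivity), ← ENNReal.ofReal_mul (by positivity)]
  congr 1
  rw [Nat.cast_choose ℝ hin, measureReal_add_apply, neg_add, Real.exp_add]
  field_simp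

lemma integrable_pp_append (μ ν : Measure M) [IsFiniteMeasure μ] [IsFiniteMeasure ν] :
    ∀ {F : Cfg M → ℝ}, Measurable F → CfgSymm F → Integrable F (pp (μ + ν)) →
      Integrable (fun p : Cfg M × Cfg M => F (Cfg.append p.1 p.2)) ((pp μ).prod (pp ν)) := by
  intro F hm hs hF
  have := isProbabilityMeasure_pp μ
  have := isProbabilityMeasure_pp ν
  have hp : Measurable fun p : Cfg M × Cfg M => F (Cfg.append p.1 p.2) := hm.comp measurable_append
  refine ⟨hp.aestronglyMeasurable, ?_⟩
  have h := hF.2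
  rw [HasFiniteIntegral] at h ⊢
  rw [lintegral_prod _ hp.enorm.aemeasurable]
  rwa [lintegral_pp_add μ ν hm.enorm fun n e v => by simp only [hs n e v]] at h

/-- Superposition. -/
theorem integral_pp_add (μ ν : Measure M) [IsFiniteMeasure μ] [IsFiniteMeasure ν] {F : Cfg M → ℝ}
    (hm : Measurable F) (hs : CfgSymm F) (hF : Integrable F (pp (μ + ν))) :
    ∫ ω, F ω ∂pp (μ + ν) = ∫ a, ∫ b, F (Cfg.append a b) ∂pp ν ∂pp μ := by
  have := isProbabilityMeasure_pp μ
  have := isProbabilityMeasure_pp ν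
  have hi := integrable_pp_append μ ν hm hs hF
  have hp : Measurable fun p : Cfg M × Cfg M => F (Cfg.append p.1 p.2) := hm.comp measurable_append
  rw [← integral_prod _ hi, integral_eq_lintegral_pos_part_sub_lintegral_neg_part hF,
    integral_eq_lintegral_pos_part_sub_lintegral_neg_part hi,
    lintegral_prod _ hp.ennreal_ofReal.aemeasurable,
    lintegral_prod (fun p : Cfg M × Cfg M => ENNReal.ofReal (-F (Cfg.append p.1 p.2)))
      hp.neg.ennreal_ofReal.aemeasurable,
    lintegral_pp_add μ ν hm.ennreal_ofReal (fun n e v => by simp only [hs n e v]),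
    lintegral_pp_add μ ν (G := fun ω => ENNReal.ofReal (-F ω)) hm.neg.ennreal_ofReal
      (fun n e v => by simp only [hs n e v])]

/-! ### Bounded increments -/

omit [MeasurableSpace M] in
lemma CfgIncr.nonneg {F : Cfg M → ℝ} {φ : M → ℝ} (hi : CfgIncr F φ) (x : M) : 0 ≤ φ x :=
  (abs_nonneg _).trans (hi x Cfg.empty)

omit [MeasurableSpace M] in
lemma CfgIncr.abs_sub_empty {F : Cfg M → ℝ} {φ : M → ℝ} (hi : CfgIncr F φ) :
    ∀ (n : ℕ) (v : Fin n → M), |F ⟨n, v⟩ - F Cfg.empty| ≤ Cfg.sum φ ⟨n, v⟩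
  | 0, v => by
    rw [show (⟨0, v⟩ : Cfg M) = Cfg.empty from Cfg.ext' rfl fun i => i.elim0, sub_self, abs_zero]
    exact sum_nonneg fun i _ => hi.nonneg _
  | n + 1, v => by
    rw [Cfg.eq_cons, Cfg.sum_cons]
    exact (abs_sub_le _ _ _).trans (add_le_add (hi _ _) (abs_sub_empty hi n _))

omit [MeasurableSpace M] in
lemma CfgIncr.abs_sub_append {F : Cfg M → ℝ} {φ : M → ℝ} (hi : CfgIncr F φ) (hs : CfgSymm F)
    (a : Cfg M) : ∀ (n : ℕ) (v : Fin n → M), |F (Cfg.append a ⟨n, v⟩) - F a| ≤ Cfg.sum φ ⟨n, v⟩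
  | 0, v => by
    rw [show (⟨0, v⟩ : Cfg M) = Cfg.empty from Cfg.ext' rfl fun i => i.elim0, Cfg.empty_append,
      sub_self, abs_zero]
    exact sum_nonneg fun i _ => hi.nonneg _
  | n + 1, v => by
    rw [Cfg.eq_cons, Cfg.sum_cons, symm_append_cons hs]
    exact (abs_sub_le _ _ _).trans (add_le_add (hi _ _) (abs_sub_append hi hs a n _))

/-- A function of bounded increments is integrable. -/
theorem integrable_of_incr (ν : Measure M) [IsFiniteMeasure ν] {F : Cfg M → ℝ} (hm : Measurable F)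
    {φ : M → ℝ} (hφ : Integrable φ ν) (hi : CfgIncr F φ) : Integrable F (pp ν) := by
  have := isProbabilityMeasure_pp ν
  refine ((integrable_const |F Cfg.empty|).add (integrable_cfgSum ν hφ)).mono'
    hm.aestronglyMeasurable (Filter.Eventually.of_forall fun ω => ?_)
  obtain ⟨n, v⟩ := ω
  rw [Real.norm_eq_abs, Pi.add_apply]
  have := hi.abs_sub_empty n v
  linarith [abs_sub_abs_le_abs_sub (F ⟨n, v⟩) (F Cfg.empty)]

/-- Adding intensity moves the mean by at most the added mass of the increments. -/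
theorem abs_sub_le_coupling (μ ν : Measure M) [IsFiniteMeasure μ] [IsFiniteMeasure ν]
    {F : Cfg M → ℝ} (hm : Measurable F) (hs : CfgSymm F) {φ : M → ℝ} (hφμ : Integrable φ μ)
    (hφν : Integrable φ ν) (hi : CfgIncr F φ) :
    |∫ ω, F ω ∂pp (μ + ν) - ∫ ω, F ω ∂pp μ| ≤ ∫ x, φ x ∂ν := by
  have := isProbabilityMeasure_pp μ
  have := isProbabilityMeasure_pp ν
  have hF := integrable_of_incr (μ + ν) hm (hφμ.add_measure hφν) hi
  have hp := integrable_pp_append μ ν hm hs hF
  have hFμ := integrable_of_incr μ hm hφμ hi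
  obtain ⟨hS, hSv⟩ := integral_sum ν hφν
  rw [integral_pp_add μ ν hm hs hF, ← integral_sub hp.integral_prod_left hFμ]
  have hc : ∫ _a, (∫ x, φ x ∂ν) ∂pp μ = ∫ x, φ x ∂ν := by simp
  rw [← hc, ← Real.norm_eq_abs]
  refine norm_integral_le_of_norm_le (μ := pp μ) (g := fun _ => ∫ x, φ x ∂ν) (integrable_const _) ?_
  filter_upwards [hp.prod_right_ae] with a ha
  rw [← hSv]
  rw [show ∫ b, F (Cfg.append a b) ∂pp ν - F a = ∫ b, (F (Cfg.append a b) - F a) ∂pp ν by
    rw [integral_sub ha (integrable_const _)]; simp]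
  exact norm_integral_le_of_norm_le hS (Filter.Eventually.of_forall fun b => by
    obtain ⟨n, v⟩ := b
    exact (Real.norm_eq_abs _).le.trans (hi.abs_sub_append hs a n v))

/-- A function whose square is integrable varies less than around any constant. -/
lemma sq_sub_integral_le {α : Type} [MeasurableSpace α] (ρ : Measure α) [IsProbabilityMeasure ρ]
    {f : α → ℝ} (hf : Integrable f ρ) (hf2 : Integrable (fun x => f x ^ 2) ρ) (c : ℝ) :
    ∫ x, f x ^ 2 ∂ρ - (∫ x, f x ∂ρ) ^ 2 ≤ ∫ x, (f x - c) ^ 2 ∂ρ := by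
  have e : ∀ x, (f x - c) ^ 2 = f x ^ 2 + (c ^ 2 - 2 * c * f x) := fun x => by ring
  simp only [e]
  have hc : Integrable (fun x => c ^ 2 - 2 * c * f x) ρ := (integrable_const _).sub (hf.const_mul _)
  rw [integral_add hf2 hc, integral_sub (integrable_const _) (hf.const_mul _), integral_const_mul]
  simp only [integral_const, probReal_univ, one_smul]
  nlinarith [sq_nonneg (c - ∫ x, f x ∂ρ)]

/-- The mean deviation is below the root of the variance. -/
lemma integral_abs_sub_le {α : Type} [MeasurableSpace α] (ρ : Measure α) [IsProbabilityMeasure ρ]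
    {f : α → ℝ} (hf : Integrable f ρ) (hf2 : Integrable (fun x => f x ^ 2) ρ) {V : ℝ}
    (hV : ∫ x, f x ^ 2 ∂ρ - (∫ x, f x ∂ρ) ^ 2 ≤ V) :
    ∫ x, |f x - ∫ y, f y ∂ρ| ∂ρ ≤ Real.sqrt V := by
  refine Real.le_sqrt_of_sq_le ?_
  set m := ∫ y, f y ∂ρ with hm
  have hg : Integrable (fun x => |f x - m|) ρ := (hf.sub (integrable_const m)).abs
  have e : ∀ x, |f x - m| ^ 2 = f x ^ 2 + (m ^ 2 - 2 * m * f x) := fun x => by rw [sq_abs]; ring
  have hg2 : Integrable (fun x => |f x - m| ^ 2) ρ := by
    simp only [e]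
    exact hf2.add ((integrable_const _).sub (hf.const_mul _))
  have hnn : 0 ≤ ∫ x, (|f x - m| - ∫ y, |f y - m| ∂ρ) ^ 2 ∂ρ := integral_nonneg fun x => sq_nonneg _
  have hv : ∫ x, |f x - m| ^ 2 ∂ρ = ∫ x, f x ^ 2 ∂ρ - m ^ 2 := by
    simp only [e]
    have hc : Integrable (fun x => m ^ 2 - 2 * m * f x) ρ := (integrable_const _).sub (hf.const_mul _)
    rw [integral_add hf2 hc,
      integral_sub (integrable_const _) (hf.const_mul _), integral_const_mul]
    simp only [integral_const, probReal_univ, one_smul, ← hm]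
    ring
  have e2 : ∀ x, (|f x - m| - ∫ y, |f y - m| ∂ρ) ^ 2 =
      |f x - m| ^ 2 + ((∫ y, |f y - m| ∂ρ) ^ 2 - 2 * (∫ y, |f y - m| ∂ρ) * |f x - m|) := fun x => by
    ring
  simp only [e2] at hnn
  have hc : Integrable (fun x => (∫ y, |f y - m| ∂ρ) ^ 2 - 2 * (∫ y, |f y - m| ∂ρ) * |f x - m|) ρ :=
    (integrable_const _).sub (hg.const_mul _)
  rw [integral_add hg2 hc,
    integral_sub (integrable_const _) (hg.const_mul _), integral_const_mul, hv] at hnn
  simp only [integral_const, probReal_univ, one_smul] at hnn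
  nlinarith

/-- The second moment of a sum over the marks. -/
lemma cfgSum_sq (ν : Measure M) [IsFiniteMeasure ν] {φ : M → ℝ} (h0 : ∀ x, 0 ≤ φ x)
    (hφ : Integrable φ ν) (hφ2 : Integrable (fun x => φ x ^ 2) ν) :
    Integrable (fun ω => Cfg.sum φ ω ^ 2) (pp ν) ∧
      ∫ ω, Cfg.sum φ ω ^ 2 ∂pp ν = ∫ x, φ x ^ 2 ∂ν + (∫ x, φ x ∂ν) ^ 2 := by
  have := isProbabilityMeasure_pp ν
  obtain ⟨ψ₀, hψ₀m, hψ₀⟩ := hφ.1
  set ψ := fun x => max (ψ₀ x) 0 with hψdef
  have hψm : Measurable ψ := hψ₀m.measurable.max measurable_const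
  have hψ0 : ∀ x, 0 ≤ ψ x := fun x => le_max_right _ _
  have hψ : φ =ᵐ[ν] ψ := hψ₀.mono fun x hx => by simp only [hψdef, ← hx, max_eq_left (h0 x)]
  have hψi : Integrable ψ ν := hφ.congr hψ
  have hψ2 : Integrable (fun x => ψ x ^ 2) ν := hφ2.congr (hψ.mono fun x hx => by simp [hx])
  have hsum : Cfg.sum φ =ᵐ[pp ν] Cfg.sum ψ := by
    obtain ⟨hd1, hd2⟩ := integral_sum ν (hφ.sub hψi).abs
    have hz : ∫ x, |φ x - ψ x| ∂ν = 0 := integral_eq_zero_of_ae (hψ.mono fun x hx => by simp [hx])
    simp only [Pi.sub_apply] at hd2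
    rw [hz] at hd2
    replace hd2 := (integral_eq_zero_iff_of_nonneg
      (f := Cfg.sum fun x => |φ x - ψ x|) (fun ω => sum_nonneg fun i _ => abs_nonneg _) hd1).1 hd2
    filter_upwards [hd2] with ω hω
    refine sum_congr rfl fun i _ => ?_
    have := (sum_eq_zero_iff_of_nonneg fun i _ => abs_nonneg _).1 hω i (mem_univ _)
    simpa [sub_eq_zero] using this
  set A := ∫⁻ x, ENNReal.ofReal (ψ x) ∂ν with hA
  set Q := ∫⁻ x, ENNReal.ofReal (ψ x ^ 2) ∂ν with hQ
  have hAr : A = ENNReal.ofReal (∫ x, ψ x ∂ν) :=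
    (ofReal_integral_eq_lintegral_ofReal hψi (Filter.Eventually.of_forall hψ0)).symm
  have hQr : Q = ENNReal.ofReal (∫ x, ψ x ^ 2 ∂ν) :=
    (ofReal_integral_eq_lintegral_ofReal hψ2 (Filter.Eventually.of_forall fun x => sq_nonneg _)).symm
  have hmeas : Measurable (Cfg.sum ψ) := measurable_cfgSum hψm
  have hS0 : ∀ ω : Cfg M, 0 ≤ Cfg.sum ψ ω := fun ω => sum_nonneg fun j _ => hψ0 _
  have key : ∫⁻ ω, ENNReal.ofReal (Cfg.sum ψ ω ^ 2) ∂pp ν = Q + A * A := by
    have h := lintegral_mecke ν (G := fun x ω => ENNReal.ofReal (ψ x * Cfg.sum ψ ω))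
      ((hψm.comp measurable_fst).mul (hmeas.comp measurable_snd)).ennreal_ofReal
      fun x n e v => by simp only [cfgSymm_sum ψ n e v]
    have e1 : ∀ ω : Cfg M, ENNReal.ofReal (Cfg.sum ψ ω ^ 2) =
        ∑ i, ENNReal.ofReal (ψ (ω.2 i) * Cfg.sum ψ ω) := fun ω => by
      rw [← ENNReal.ofReal_sum_of_nonneg fun i _ => mul_nonneg (hψ0 _) (hS0 _),
        ← sum_mul, sq]
      rfl
    have e2 : ∀ x ω, ENNReal.ofReal (ψ x * Cfg.sum ψ (Cfg.cons x ω)) =
        ENNReal.ofReal (ψ x ^ 2) + ENNReal.ofReal (ψ x) * ∑ i, ENNReal.ofReal (ψ (ω.2 i)) := fun x ω => by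
      rw [Cfg.sum_cons, mul_add, ENNReal.ofReal_add (mul_nonneg (hψ0 x) (hψ0 x))
        (mul_nonneg (hψ0 x) (hS0 _)), ← sq, ENNReal.ofReal_mul (hψ0 x), Cfg.sum,
        ENNReal.ofReal_sum_of_nonneg fun i _ => hψ0 _]
    have hS : Measurable fun ω : Cfg M => ∑ i, ENNReal.ofReal (ψ (ω.2 i)) :=
      measurable_cfg fun n => Finset.measurable_sum
        (f := fun i (v : Fin n → M) => ENNReal.ofReal (ψ (v i))) univ
        fun i _ => hψm.ennreal_ofReal.comp (measurable_pi_apply i)
    simp only [e1, h, e2]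
    simp only [lintegral_add_left measurable_const, lintegral_const_mul _ hS, lintegral_const,
      measure_univ, mul_one, lintegral_cfgSum ν hψm.ennreal_ofReal, ← hA]
    rw [lintegral_add_left (hψm.pow_const 2).ennreal_ofReal,
      lintegral_mul_const _ hψm.ennreal_ofReal]
  have hval : Q + A * A = ENNReal.ofReal (∫ x, ψ x ^ 2 ∂ν + (∫ x, ψ x ∂ν) ^ 2) := by
    rw [hAr, hQr, ← ENNReal.ofReal_mul (integral_nonneg hψ0),
      ← ENNReal.ofReal_add (integral_nonneg fun x => sq_nonneg _) (mul_self_nonneg _), sq]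
  have hint : Integrable (fun ω => Cfg.sum ψ ω ^ 2) (pp ν) := by
    refine ⟨(hmeas.pow_const 2).aestronglyMeasurable, ?_⟩
    rw [hasFiniteIntegral_iff_ofReal (Filter.Eventually.of_forall fun ω => sq_nonneg _), key, hval]
    exact ENNReal.ofReal_lt_top
  have hsq : (fun ω => Cfg.sum ψ ω ^ 2) =ᵐ[pp ν] fun ω => Cfg.sum φ ω ^ 2 :=
    hsum.symm.mono fun ω hω => by simp [hω]
  refine ⟨hint.congr hsq, ?_⟩
  rw [← integral_congr_ae hsq, integral_congr_ae hψ,
    integral_congr_ae (hψ.mono fun x hx => by simp [hx] : (fun x => φ x ^ 2) =ᵐ[ν] fun x => ψ x ^ 2),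
    integral_eq_lintegral_of_nonneg_ae (Filter.Eventually.of_forall fun ω => sq_nonneg _)
      (hmeas.pow_const 2).aestronglyMeasurable, key, hval,
    ENNReal.toReal_ofReal (add_nonneg (integral_nonneg fun x => sq_nonneg _) (sq_nonneg _))]

lemma integrable_sq_of_incr (ν : Measure M) [IsFiniteMeasure ν] {F : Cfg M → ℝ} (hm : Measurable F)
    {φ : M → ℝ} (hφ : Integrable φ ν) (hφ2 : Integrable (fun x => φ x ^ 2) ν) (hi : CfgIncr F φ) :
    Integrable (fun ω => F ω ^ 2) (pp ν) := by
  have := isProbabilityMeasure_pp ν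
  refine (((cfgSum_sq ν hi.nonneg hφ hφ2).1.const_mul 2).add (integrable_const (2 * F Cfg.empty ^ 2))).mono'
    (hm.pow_const 2).aestronglyMeasurable (Filter.Eventually.of_forall fun ω => ?_)
  obtain ⟨n, v⟩ := ω
  rw [Real.norm_eq_abs, abs_of_nonneg (sq_nonneg _), Pi.add_apply]
  have h : (F ⟨n, v⟩ - F Cfg.empty) ^ 2 ≤ Cfg.sum φ ⟨n, v⟩ ^ 2 := by
    rw [← sq_abs (F _ - F _)]
    exact pow_le_pow_left₀ (abs_nonneg _) (hi.abs_sub_empty n v) 2
  nlinarith [sq_nonneg (F ⟨n, v⟩ - 2 * F Cfg.empty)]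

/-- The variance over `k` equal pieces of intensity. -/
lemma var_pieces (ρ : Measure M) [IsFiniteMeasure ρ] {φ : M → ℝ} (hφ : Integrable φ ρ)
    (hφ2 : Integrable (fun x => φ x ^ 2) ρ) :
    ∀ (k : ℕ) (F : Cfg M → ℝ), Measurable F → CfgSymm F → CfgIncr F φ →
      ∫ ω, F ω ^ 2 ∂pp ((k : ℝ≥0∞) • ρ) - (∫ ω, F ω ∂pp ((k : ℝ≥0∞) • ρ)) ^ 2 ≤
        k * (∫ x, φ x ^ 2 ∂ρ + (∫ x, φ x ∂ρ) ^ 2)
  | 0, F, hm, _, hi => by
    rw [Nat.cast_zero, zero_smul]
    have := isProbabilityMeasure_pp (0 : Measure M)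
    refine (sq_sub_integral_le _ (integrable_of_incr 0 hm integrable_zero_measure hi)
      (integrable_sq_of_incr 0 hm integrable_zero_measure integrable_zero_measure hi)
      (F Cfg.empty)).trans ?_
    obtain ⟨h1, h2⟩ := cfgSum_sq (0 : Measure M) hi.nonneg integrable_zero_measure integrable_zero_measure
    refine (integral_mono_of_nonneg (Filter.Eventually.of_forall fun ω => sq_nonneg _) h1
      (Filter.Eventually.of_forall fun ω => ?_)).trans (le_of_eq (by rw [h2]; simp))
    obtain ⟨n, v⟩ := ω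
    simp only
    rw [← sq_abs]
    exact pow_le_pow_left₀ (abs_nonneg _) (hi.abs_sub_empty n v) 2
  | k + 1, F, hm, hs, hi => by
    set σ := (k : ℝ≥0∞) • ρ with hσ
    have : IsFiniteMeasure σ := ρ.smul_finite (ENNReal.natCast_ne_top k)
    rw [show ((k + 1 : ℕ) : ℝ≥0∞) • ρ = σ + ρ by rw [Nat.cast_succ, add_smul, one_smul]]
    have := isProbabilityMeasure_pp σ
    have := isProbabilityMeasure_pp ρ
    have iσ : Integrable φ σ := hφ.smul_measure (ENNReal.natCast_ne_top k)
    have iσ2 : Integrable (fun x => φ x ^ 2) σ := hφ2.smul_measure (ENNReal.natCast_ne_top k)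
    have h1 := integrable_of_incr (σ + ρ) hm (iσ.add_measure hφ) hi
    have h2 := integrable_sq_of_incr (σ + ρ) hm (iσ.add_measure hφ) (iσ2.add_measure hφ2) hi
    have hs2 : CfgSymm fun ω => F ω ^ 2 := fun n e v => by simp only [hs n e v]
    have hp2 := integrable_pp_append σ ρ (hm.pow_const 2) hs2 h2
    rw [integral_pp_add σ ρ (hm.pow_const 2) hs2 h2, integral_pp_add σ ρ hm hs h1]
    have hb : ∀ a, Measurable fun b => F (Cfg.append a b) := fun a =>
      hm.comp (measurable_append.comp measurable_prodMk_left)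
    have hsa : ∀ a : Cfg M, CfgIncr (fun b => F (Cfg.append a b)) φ := fun a x b => by
      simp only [symm_append_cons hs]
      exact hi _ _
    have hbi : ∀ a, Integrable (fun b => F (Cfg.append a b)) (pp ρ) := fun a =>
      integrable_of_incr ρ (hb a) hφ (hsa a)
    have hbi2 : ∀ a, Integrable (fun b => F (Cfg.append a b) ^ 2) (pp ρ) := fun a =>
      integrable_sq_of_incr ρ (hb a) hφ hφ2 (hsa a)
    set G := fun a => ∫ b, F (Cfg.append a b) ∂pp ρ with hG
    have hGm : Measurable G :=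
      (hm.comp measurable_append).stronglyMeasurable.integral_prod_right'.measurable
    have hGs : CfgSymm G := fun n e v =>
      integral_congr_ae (Filter.Eventually.of_forall fun b => symm_append_left hs b n e v)
    have hGi : CfgIncr G φ := fun x a => by
      simp only [hG, Cfg.cons_append]
      rw [← integral_sub (by simpa only [← Cfg.cons_append] using hbi (Cfg.cons x a)) (hbi a)]
      exact (norm_integral_le_of_norm_le_const (μ := pp ρ)
        (Filter.Eventually.of_forall fun b => (Real.norm_eq_abs _).le.trans (hi x _))).trans (by simp)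
    have ih := var_pieces ρ hφ hφ2 k G hGm hGs hGi
    rw [← hσ] at ih
    obtain ⟨hS, hSv⟩ := cfgSum_sq ρ hi.nonneg hφ hφ2
    set δ := ∫ x, φ x ^ 2 ∂ρ + (∫ x, φ x ∂ρ) ^ 2 with hδ
    have hstep : ∀ a, ∫ b, F (Cfg.append a b) ^ 2 ∂pp ρ ≤ G a ^ 2 + δ := fun a => by
      have h := (sq_sub_integral_le _ (hbi a) (hbi2 a) (F a)).trans
        (integral_mono_of_nonneg (Filter.Eventually.of_forall fun b => sq_nonneg _) hS
          (Filter.Eventually.of_forall fun b => by
            obtain ⟨n, v⟩ := b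
            simp only
            rw [← sq_abs]
            exact pow_le_pow_left₀ (abs_nonneg _) (hi.abs_sub_append hs a n v) 2))
      rw [hSv] at h
      linarith
    have hG2 : Integrable (fun a => G a ^ 2) (pp σ) := integrable_sq_of_incr σ hGm iσ iσ2 hGi
    have h := integral_mono hp2.integral_prod_left (hG2.add (integrable_const δ)) hstep
    simp only [Pi.add_apply] at h
    rw [integral_add hG2 (integrable_const δ), integral_const, probReal_univ, one_smul] at h
    push_cast
    rw [add_one_mul]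
    linarith

/-- Fluctuations under bounded increments. -/
theorem fluct_pp (ν : Measure M) [IsFiniteMeasure ν] {F : Cfg M → ℝ} (hm : Measurable F)
    (hs : CfgSymm F) {φ : M → ℝ} (hφ : Integrable φ ν) (hφ2 : Integrable (fun x => φ x ^ 2) ν)
    (hi : CfgIncr F φ) :
    ∫ ω, |F ω - ∫ ω', F ω' ∂pp ν| ∂pp ν ≤ Real.sqrt (∫ x, φ x ^ 2 ∂ν) := by
  have := isProbabilityMeasure_pp ν
  refine integral_abs_sub_le _ (integrable_of_incr ν hm hφ hi) (integrable_sq_of_incr ν hm hφ hφ2 hi) ?_
  have hk : ∀ k : ℕ, ∫ ω, F ω ^ 2 ∂pp ν - (∫ ω, F ω ∂pp ν) ^ 2 ≤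
      ∫ x, φ x ^ 2 ∂ν + (∫ x, φ x ∂ν) ^ 2 / ((k : ℝ) + 1) := fun k => by
    set c : ℝ≥0∞ := ((k + 1 : ℕ) : ℝ≥0∞)⁻¹ with hc
    have hc0 : ((k + 1 : ℕ) : ℝ≥0∞) ≠ 0 := by simp
    have hct : c ≠ ⊤ := ENNReal.inv_ne_top.2 hc0
    have : IsFiniteMeasure (c • ν) := ν.smul_finite hct
    have h := var_pieces (c • ν) (hφ.smul_measure hct) (hφ2.smul_measure hct) (k + 1) F hm hs hi
    rw [smul_smul, hc, ENNReal.mul_inv_cancel hc0 (ENNReal.natCast_ne_top _), one_smul,
      integral_smul_measure, integral_smul_measure, smul_eq_mul, smul_eq_mul, ENNReal.toReal_inv,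
      ENNReal.toReal_natCast] at h
    push_cast at h
    refine h.trans (le_of_eq ?_)
    field_simp
  have hlim := tendsto_one_div_add_atTop_nhds_zero_nat.const_mul ((∫ x, φ x ∂ν) ^ 2)
  have hlim' := hlim.const_add (∫ x, φ x ^ 2 ∂ν)
  rw [mul_zero, add_zero] at hlim'
  exact ge_of_tendsto' hlim' fun k => (hk k).trans_eq (by ring)

/-! ### Bounded differences -/

omit [MeasurableSpace M] in
lemma abs_sub_const_le {φ : M → ℝ} (x0 : M) : ∀ (n : ℕ) (F : (Fin n → M) → ℝ),
    (∀ v i x, |F (Function.update v i x) - F v| ≤ φ x + φ (v i)) →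
      ∀ v, |F v - F fun _ => x0| ≤ ∑ i, (φ (v i) + φ x0)
  | 0, F, _, v => by
    rw [Subsingleton.elim v fun _ => x0]
    simp
  | n + 1, F, hd, v => by
    have ih := abs_sub_const_le x0 n (fun w => F (Fin.cons x0 w)) (fun w i x => by
      have h := hd (Fin.cons x0 w) i.succ x
      rwa [← Fin.cons_update, Fin.cons_succ] at h) (Fin.tail v)
    have h0 := hd v 0 x0
    rw [show Function.update v 0 x0 = Fin.cons x0 (Fin.tail v) from funext fun i => by
      refine Fin.cases ?_ (fun j => ?_) i <;> simp [Fin.tail]] at h0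
    have hc : (Fin.cons x0 fun _ => x0 : Fin (n + 1) → M) = fun _ => x0 :=
      funext fun i => by refine Fin.cases ?_ (fun j => ?_) i <;> simp
    rw [hc] at ih
    rw [Fin.sum_univ_succ]
    refine (abs_sub_le _ (F (Fin.cons x0 (Fin.tail v))) _).trans (add_le_add ?_ ih)
    exact ((abs_sub_comm _ _).le.trans h0).trans_eq (add_comm _ _)

lemma integrable_bdiff (ν : Measure M) [IsProbabilityMeasure ν] {φ : M → ℝ}
    (hφ : MemLp φ 2 ν) (x0 : M) {n : ℕ} {F : (Fin n → M) → ℝ} (hm : Measurable F)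
    (hd : ∀ v i x, |F (Function.update v i x) - F v| ≤ φ x + φ (v i)) :
    MemLp F 2 (Measure.pi fun _ : Fin n => ν) := by
  have hb : MemLp (fun v : Fin n → M => |F fun _ => x0| + ∑ i, (φ (v i) + φ x0)) 2
      (Measure.pi fun _ : Fin n => ν) :=
    (memLp_const |F fun _ => x0|).add (memLp_finsetSum univ
      (f := fun i (v : Fin n → M) => φ (v i) + φ x0) fun i _ => by
        have h1 : MemLp (fun v : Fin n → M => φ (v i)) 2 (Measure.pi fun _ : Fin n => ν) :=
          hφ.comp_measurePreserving (measurePreserving_eval (fun _ : Fin n => ν) i)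
        exact h1.add (memLp_const (φ x0)))
  refine hb.mono hm.aestronglyMeasurable (Filter.Eventually.of_forall fun v => ?_)
  rw [Real.norm_eq_abs, Real.norm_eq_abs]
  refine le_trans ?_ (le_abs_self _)
  linarith [abs_sub_const_le x0 n F hd v, abs_sub_abs_le_abs_sub (F v) (F fun _ => x0)]

lemma var_pi (ν : Measure M) [IsProbabilityMeasure ν] {φ : M → ℝ} (hφ : MemLp φ 2 ν) :
    ∀ (n : ℕ) (F : (Fin n → M) → ℝ), Measurable F →
      (∀ v i x, |F (Function.update v i x) - F v| ≤ φ x + φ (v i)) →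
      ∫ v, F v ^ 2 ∂(Measure.pi fun _ : Fin n => ν) - (∫ v, F v ∂(Measure.pi fun _ : Fin n => ν)) ^ 2 ≤
        4 * (n * ∫ x, φ x ^ 2 ∂ν)
  | 0, F, hm, _ => by
    rw [Measure.pi_of_empty (fun _ : Fin 0 => ν), integral_dirac' _ _ (hm.pow_const 2).stronglyMeasurable,
      integral_dirac' _ _ hm.stronglyMeasurable]
    simp
  | n + 1, F, hm, hd => by
    obtain ⟨x0⟩ := nonempty_of_isProbabilityMeasure ν
    set P := Measure.pi fun _ : Fin n => ν
    have hmp := measurePreserving_cons ν n
    have hF2 := integrable_bdiff ν hφ x0 hm hd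
    have hc := hF2.comp_measurePreserving hmp
    have hi1 : Integrable (fun p : M × (Fin n → M) => F (Fin.cons p.1 p.2)) (ν.prod P) :=
      hc.integrable one_le_two
    have hi2 : Integrable (fun p : M × (Fin n → M) => F (Fin.cons p.1 p.2) ^ 2) (ν.prod P) :=
      hc.integrable_sq
    have hmap : ∀ g : (Fin (n + 1) → M) → ℝ, Measurable g →
        ∫ v, g v ∂(Measure.pi fun _ : Fin (n + 1) => ν) = ∫ p, g (Fin.cons p.1 p.2) ∂ν.prod P :=
      fun g hg => by
        rw [← hmp.map_eq, integral_map hmp.measurable.aemeasurable hg.aestronglyMeasurable]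
    rw [hmap _ hm, hmap _ (hm.pow_const 2), integral_prod_symm _ hi2, integral_prod_symm _ hi1]
    set G := fun w => ∫ x, F (Fin.cons x w) ∂ν with hG
    have hsec : ∀ w, MemLp (fun x => F (Fin.cons x w)) 2 ν := fun w => by
      have hmw : Measurable fun x : M => F (Fin.cons x w) :=
        hm.comp (hmp.measurable.comp (measurable_id.prodMk measurable_const))
      refine ((memLp_const |F (Fin.cons x0 w)|).add (hφ.add (memLp_const (φ x0)))).mono
        hmw.aestronglyMeasurable (Filter.Eventually.of_forall fun x => ?_)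
      have h := hd (Fin.cons x0 w) 0 x
      rw [Fin.update_cons_zero, Fin.cons_zero] at h
      rw [Real.norm_eq_abs, Real.norm_eq_abs]
      refine le_trans ?_ (le_abs_self _)
      simp only [Pi.add_apply]
      linarith [abs_sub_abs_le_abs_sub (F (Fin.cons x w)) (F (Fin.cons x0 w))]
    have hGm : Measurable G :=
      ((hm.comp (hmp.measurable.comp measurable_swap)).stronglyMeasurable.integral_prod_right'
        (ν := ν)).measurable
    have hGd : ∀ w i y, |G (Function.update w i y) - G w| ≤ φ y + φ (w i) := fun w i y => by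
      simp only [hG]
      rw [← integral_sub ((hsec _).integrable one_le_two) ((hsec _).integrable one_le_two)]
      rw [← Real.norm_eq_abs]; refine (norm_integral_le_of_norm_le_const (μ := ν) (C := φ y + φ (w i))
        (Filter.Eventually.of_forall fun x => ?_)).trans (le_of_eq (by rw [probReal_univ, mul_one]))
      have h := hd (Fin.cons x w) i.succ y
      rw [← Fin.cons_update, Fin.cons_succ] at h
      exact (Real.norm_eq_abs _).le.trans h
    have hG2 : Integrable (fun w => G w ^ 2) P := (integrable_bdiff ν hφ x0 hGm hGd).integrable_sq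
    set A := ∫ x, φ x ^ 2 ∂ν with hA
    set B := ∫ x, φ x ∂ν with hB
    have hφi := hφ.integrable one_le_two
    have hBA : B ^ 2 ≤ A := by
      have h := sq_sub_integral_le ν (f := φ) hφi hφ.integrable_sq B
      have hz : 0 ≤ ∫ x, (φ x - B) ^ 2 ∂ν := integral_nonneg fun x => sq_nonneg _
      have e : ∀ x, (φ x - B) ^ 2 = φ x ^ 2 + (B ^ 2 - 2 * B * φ x) := fun x => by ring
      simp only [e] at hz
      have hc : Integrable (fun x => B ^ 2 - 2 * B * φ x) ν := (integrable_const _).sub (hφi.const_mul _)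
      rw [integral_add hφ.integrable_sq hc,
        integral_sub (integrable_const _) (hφi.const_mul _), integral_const_mul] at hz
      simp only [integral_const, probReal_univ, one_smul, ← hA, ← hB] at hz
      nlinarith
    have hsq : ∀ y, Integrable (fun x => (φ x + φ y) ^ 2) ν ∧
        ∫ x, (φ x + φ y) ^ 2 ∂ν = A + (2 * φ y * B + φ y ^ 2) := fun y => by
      have e : ∀ x, (φ x + φ y) ^ 2 = φ x ^ 2 + (2 * φ y * φ x + φ y ^ 2) := fun x => by ring
      simp only [e]
      have hc : Integrable (fun x => 2 * φ y * φ x + φ y ^ 2) ν := (hφi.const_mul _).add (integrable_const _)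
      refine ⟨hφ.integrable_sq.add hc, ?_⟩
      rw [integral_add hφ.integrable_sq hc,
        integral_add (hφi.const_mul _) (integrable_const _), integral_const_mul]
      simp [hA, hB]
    have hstep : ∀ w, ∫ x, F (Fin.cons x w) ^ 2 ∂ν ≤ G w ^ 2 + 4 * A := fun w => by
      have hy : ∀ y, ∫ x, F (Fin.cons x w) ^ 2 ∂ν - G w ^ 2 ≤ A + (2 * φ y * B + φ y ^ 2) := fun y => by
        refine (sq_sub_integral_le ν ((hsec w).integrable one_le_two) (hsec w).integrable_sq
          (F (Fin.cons y w))).trans ((integral_mono_of_nonneg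
            (Filter.Eventually.of_forall fun x => sq_nonneg _) (hsq y).1
            (Filter.Eventually.of_forall fun x => ?_)).trans_eq (hsq y).2)
        simp only
        rw [← sq_abs]
        refine pow_le_pow_left₀ (abs_nonneg _) ?_ 2
        have h := hd (Fin.cons y w) 0 x
        rwa [Fin.update_cons_zero, Fin.cons_zero] at h
      have i1 : Integrable (fun y => 2 * φ y * B + φ y ^ 2) ν :=
        ((hφi.const_mul 2).mul_const B).add hφ.integrable_sq
      have h := integral_mono (integrable_const _) ((integrable_const A).add i1) hy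
      simp only [Pi.add_apply] at h
      rw [integral_add (integrable_const A) i1,
        integral_add ((hφi.const_mul 2).mul_const B) hφ.integrable_sq, integral_mul_const,
        integral_const_mul] at h
      simp only [integral_const, probReal_univ, one_smul, ← hA, ← hB] at h
      nlinarith
    have h := integral_mono hi2.integral_prod_right (hG2.add (integrable_const (4 * A))) hstep
    simp only [Pi.add_apply] at h
    rw [integral_add hG2 (integrable_const _), integral_const, probReal_univ, one_smul] at h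
    have ih := var_pi ν hφ n G hGm hGd
    rw [← hA] at ih
    push_cast
    rw [add_one_mul, mul_add]
    linarith

/-- Fluctuations under bounded differences. -/
theorem fluct_pi {ι : Type} [Fintype ι] [DecidableEq ι] (ν : Measure M) [IsProbabilityMeasure ν]
    {F : (ι → M) → ℝ} (hm : Measurable F) {φ : M → ℝ} (hφ2 : Integrable (fun x => φ x ^ 2) ν)
    (hd : ∀ v i x, |F (Function.update v i x) - F v| ≤ φ x + φ (v i)) :
    ∫ v, |F v - ∫ w, F w ∂Measure.pi fun _ : ι => ν| ∂(Measure.pi fun _ : ι => ν) ≤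
      2 * Real.sqrt (Fintype.card ι * ∫ x, φ x ^ 2 ∂ν) := by
  rcases isEmpty_or_nonempty ι with hι | ⟨⟨i0⟩⟩
  · rw [Measure.pi_of_empty (fun _ : ι => ν), integral_dirac' _ _ (hm.sub_const _).abs.stronglyMeasurable,
      integral_dirac' _ _ hm.stronglyMeasurable, sub_self, abs_zero]
    positivity
  have h0 : ∀ x, 0 ≤ φ x := fun x => by
    have h := hd (fun _ => x) i0 x
    simp only [Function.update_eq_self, sub_self, abs_zero] at h
    linarith
  have hφ : MemLp φ 2 ν := by
    have hr : φ = fun x => Real.sqrt (φ x ^ 2) := funext fun x => (Real.sqrt_sq (h0 x)).symm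
    refine (memLp_two_iff_integrable_sq ?_).2 hφ2
    rw [hr]
    exact Real.continuous_sqrt.comp_aestronglyMeasurable hφ2.1
  obtain ⟨x0⟩ := nonempty_of_isProbabilityMeasure ν
  set e := (Fintype.equivFin ι).symm
  have hmp : MeasurePreserving (fun (u : Fin (Fintype.card ι) → M) i => u (e.symm i))
      (Measure.pi fun _ : Fin (Fintype.card ι) => ν) (Measure.pi fun _ : ι => ν) := by
    convert measurePreserving_piCongrLeft (fun _ : ι => ν) e using 2 with u
    funext i
    simp [MeasurableEquiv.piCongrLeft, Equiv.piCongrLeft_apply_eq_cast]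
  set F' := fun u : Fin (Fintype.card ι) → M => F fun i => u (e.symm i) with hF'
  have hm' : Measurable F' := hm.comp hmp.measurable
  have hd' : ∀ v i x, |F' (Function.update v i x) - F' v| ≤ φ x + φ (v i) := fun v i x => by
    have h := hd (fun j => v (e.symm j)) (e i) x
    have eu : Function.update (fun j => v (e.symm j)) (e i) x =
        fun j => Function.update v i x (e.symm j) := funext fun j => by
      simp [Function.update_apply, Equiv.symm_apply_eq]
    rw [eu] at h
    simpa using h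
  have h2 := integrable_bdiff ν hφ x0 hm' hd'
  have hmap : ∀ g : (ι → M) → ℝ, Measurable g → ∫ v, g v ∂(Measure.pi fun _ : ι => ν) =
      ∫ u, g (fun i => u (e.symm i)) ∂(Measure.pi fun _ : Fin (Fintype.card ι) => ν) := fun g hg => by
    rw [← hmp.map_eq, integral_map hmp.measurable.aemeasurable hg.aestronglyMeasurable]
  rw [hmap _ hm, hmap _ ((hm.sub_const _).abs)]
  refine (integral_abs_sub_le _ (h2.integrable one_le_two) h2.integrable_sq
    (var_pi ν hφ _ F' hm' hd')).trans (le_of_eq ?_)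
  rw [Real.sqrt_mul (by norm_num), show Real.sqrt 4 = 2 by
    rw [show (4 : ℝ) = 2 ^ 2 by norm_num, Real.sqrt_sq (by norm_num)]]

end Vale.Agent.P168
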