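import Vale.Agent.P168.Defs
import Vale.Agent.P157.Low.Defs

/-!
P168: coordinates of multi-overlaps of clause species, limit objects, and the cavity functional of a
law of columns of spins.
-/

namespace Vale.Agent.P168

open MeasureTheory Finset
open scoped symmDiff

/-- A species: an arity and a rational clause function. -/
abbrev Spc := Σ k : ℕ, (Fin k → Bool) → ℚ

/-- The character of a set of positions. -/
def chi {k : ℕ} (B : Finset (Fin k)) (σ : Fin k → Bool) : ℝ := ∏ i ∈ B, spin (σ i)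

/-- The character of a set of positions, with rational values. -/
def chiQ {k : ℕ} (B : Finset (Fin k)) (σ : Fin k → Bool) : ℚ := ∏ i ∈ B, if σ i then 1 else -1

/-- The species of `k` free sites. -/
@[reducible] def Spc.free (k : ℕ) : Spc := ⟨k, fun _ => 0⟩

/-- A species moved by `c` times a character. -/
@[reducible] def Spc.shift (j : Spc) (c : ℚ) (B : Finset (Fin j.1)) : Spc := ⟨j.1, fun σ => j.2 σ + c * chiQ B σ⟩

/-- Two species side by side. -/
@[reducible] def Spc.app (j j' : Spc) : Spc :=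
  ⟨j.1 + j'.1, fun σ => j.2 (fun i => σ (Fin.castAdd j'.1 i)) + j'.2 fun i => σ (Fin.natAdd j.1 i)⟩

/-- A pattern: pairs of a replica and a position. -/
abbrev Pat (k : ℕ) := Finset (ℕ × Fin k)

/-- One replica with a set of positions. -/
def single {k : ℕ} (l : ℕ) (B : Finset (Fin k)) : Pat k := {l} ×ˢ B

/-- The pattern of a pair overlap, empty on the diagonal. -/
def pair {k : ℕ} (l l' : ℕ) (B : Finset (Fin k)) : Pat k := single l B ∆ single l' B

/-- A pattern multiplied by a character of one replica. -/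
def flipPat {k : ℕ} (A : Pat k) (l : ℕ) (B : Finset (Fin k)) : Pat k := A ∆ single l B

/-- Two patterns side by side. -/
def cat {k k' : ℕ} (A : Pat k) (A' : Pat k') : Pat (k + k') :=
  A.image (fun p => (p.1, Fin.castAdd k' p.2)) ∪ A'.image fun p => (p.1, Fin.natAdd k p.2)

/-- A pattern on the replicas below `n`. -/
def Below {k : ℕ} (n : ℕ) (A : Pat k) : Prop := ∀ p ∈ A, p.1 < n

/-- The coordinates. -/
abbrev Idx := Σ j : Spc, Pat j.1

/-- The space of all overlaps. -/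
abbrev Cube := Idx → ↥(Set.Icc (-1 : ℝ) 1)

/-- An overlap. -/
def R (j : Spc) (A : Pat j.1) (ω : Cube) : ℝ := ω ⟨j, A⟩

/-- Renaming of the replicas. -/
def relabel (e : ℕ → ℕ) (ω : Cube) : Cube :=
  fun i => ω ⟨i.1, i.2.image fun p => (e p.1, p.2)⟩

/-- A function of the first `n` replicas. -/
def DepBelow (n : ℕ) (f : Cube → ℝ) : Prop :=
  ∀ ω ω' : Cube, (∀ (j : Spc) (A : Pat j.1), Below n A → R j A ω = R j A ω') → f ω = f ω'

/-- The restriction to the first `n` replicas. -/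
def restr (n : ℕ) (ω : Cube) : {i : Idx // Below n i.2} → ↥(Set.Icc (-1 : ℝ) 1) := fun i => ω i.1

/-- A bounded measurable function of the first `n` replicas. -/
structure Obs (n : ℕ) (f : Cube → ℝ) : Prop where
  fac : ∃ g, Measurable g ∧ f = g ∘ restr n
  bdd : ∃ D, ∀ ω, |f ω| ≤ D

/-- A limit of the overlaps of perturbed models. -/
structure Lim where
  P : Measure Cube
  prob : IsProbabilityMeasure P
  inv : ∀ e : ℕ → ℕ, Function.Injective e → P.map (relabel e) = P
  one : ∀ j : Spc, ∀ᵐ ω ∂P, R j ∅ ω = 1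
  psd : ∀ (j : Spc) (s : Finset (Pat j.1)) (c : Pat j.1 → ℝ),
    ∀ᵐ ω ∂P, 0 ≤ ∑ A ∈ s, ∑ A' ∈ s, c A * c A' * R j (A ∆ A') ω
  mult : ∀ (j j' : Spc) (A : Pat j.1) (A' : Pat j'.1),
    ∀ᵐ ω ∂P, R (j.app j') (cat A A') ω = R j A ω * R j' A' ω
  deriv : ∀ (n : ℕ) (f : Cube → ℝ), Continuous f → DepBelow n f → ∀ D : ℝ, (∀ ω, |f ω| ≤ D) →
    ∀ (j : Spc) (c : ℚ) (B : Finset (Fin j.1)) (A : Pat j.1), Below n A →
      |∫ ω, f ω * R (j.shift c B) A ω ∂P - ∫ ω, f ω * R j A ω ∂P -
          (c : ℝ) * (∑ l ∈ range n, ∫ ω, f ω * R j (flipPat A l B) ω ∂P -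
            (n : ℝ) * ∫ ω, f ω * R j (flipPat A n B) ω ∂P)| ≤
        4 * ((n : ℝ) + 1) ^ 2 * D * (c : ℝ) ^ 2
  gg : ∀ (n : ℕ) (f : Cube → ℝ), Continuous f → DepBelow n f →
    ∀ (j : Spc) (B : Finset (Fin j.1)) (l : ℕ), l < n →
      (n : ℝ) * ∫ ω, f ω * R j (pair l n B) ω ∂P =
        (∫ ω, f ω ∂P) * (∫ ω, R j (pair 0 1 B) ω ∂P) +
          ∑ l' ∈ (range n).erase l, ∫ ω, f ω * R j (pair l l' B) ω ∂P
  const1 : ∀ (j : Spc) (B : Finset (Fin j.1)),
    ∀ᵐ ω ∂P, R j (single 0 B) ω = ∫ ω', R j (single 0 B) ω' ∂P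

attribute [instance] Lim.prob

/-- Laws of the spins of `m` sites under `n` replicas. -/
abbrev ColLaw := ∀ m n : ℕ, (Fin n → Fin m → Bool) → ℝ

/-- The law of free sites of a limit. -/
noncomputable def Lim.colLaw (L : Lim) : ColLaw := fun m n σ =>
  ((2 : ℝ) ^ (n * m))⁻¹ * ∑ A : Finset (Fin n × Fin m), (∏ p ∈ A, spin (σ p.1 p.2)) *
    ∫ ω, R (Spc.free m) (A.image fun p => ((p.1 : ℕ), p.2)) ω ∂L.P

/-- Probability vectors for all numbers of sites and replicas. -/
structure ColLaw.IsProb (p : ColLaw) : Prop where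
  nonneg : ∀ m n σ, 0 ≤ p m n σ
  total : ∀ m n, ∑ σ, p m n σ = 1

/-- The series of the logarithm of the average of a positive weight `W`. -/
noncomputable def logMom (p : ColLaw) {m : ℕ} (W : (Fin m → Bool) → ℝ) : ℝ :=
  Real.log (∑ τ, W τ) -
    ∑' k : ℕ, (∑ σ, p m (k + 1) σ * ∏ l, (1 - W (σ l) / ∑ τ, W τ)) / ((k : ℝ) + 1)

/-- The weight of a cavity site, as a function of the other spins of its clauses. -/
noncomputable def siteW {K c : ℕ} (h : ℝ) (cl : Fin c → Table K × Fin K)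
    (σ : Fin (c * K) → Bool) : ℝ :=
  ∑ ε : Bool, Real.exp (h * spin ε) *
    ∏ k, Real.exp ((cl k).1 (Function.update (fun j => σ (finProdFinEquiv (k, j))) (cl k).2 ε))

/-- The weight of cavity clauses. -/
noncomputable def edgeW {K c : ℕ} (θs : Fin c → Table K) (σ : Fin (c * K) → Bool) : ℝ :=
  ∏ k, Real.exp (θs k fun j => σ (finProdFinEquiv (k, j)))

/-- The cavity functional. -/
noncomputable def cavityVal {K : ℕ} (lam : ℝ) (μ : Measure (Table K)) (η : Measure ℝ) (p : ColLaw) :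
    ℝ :=
  poissonAvg (K * lam) (fun c => ∫ h, ∫ cl, logMom p (siteW h cl)
      ∂(Measure.pi fun _ : Fin c => μ.prod (unif K)) ∂η) -
    poissonAvg (((K : ℝ) - 1) * lam) fun c => ∫ θs, logMom p (edgeW θs)
      ∂Measure.pi fun _ : Fin c => μ

/-- The levels of a vector of exponents in `(0, 1)`. -/
def withZero {r : ℕ} (m : Fin r → ℝ) : Fin (r + 1) → ℝ := Fin.cons 0 m

end Vale.Agent.P168
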