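import Vale.Agent.P168.Upper.Compare

/-!
P168: the lower bound reduces to bounded clause functions and fields.
-/

namespace Vale.Agent.P168

open MeasureTheory Filter Compare
open scoped Topology

/-- A number moved into `[-B, B]`. -/
noncomputable def clip (B t : ℝ) : ℝ := max (-B) (min B t)

lemma measurable_clip (B : ℝ) : Measurable (clip B) :=
  measurable_const.max (measurable_const.min measurable_id)

lemma abs_clip_le {B : ℝ} (hB : 0 ≤ B) (t : ℝ) : |clip B t| ≤ B :=
  abs_le.2 ⟨le_max_left _ _, max_le (by linarith) (min_le_left _ _)⟩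

lemma abs_sub_clip_le {B : ℝ} (hB : 0 ≤ B) (t : ℝ) : |t - clip B t| ≤ |t| := by
  rw [clip]
  rcases le_total t (-B) with h | h
  · rw [min_eq_right (by linarith), max_eq_left h, abs_of_nonpos (by linarith : t - -B ≤ 0),
      abs_of_nonpos (by linarith : t ≤ 0)]
    linarith
  · rcases le_total B t with h' | h'
    · rw [min_eq_left h', max_eq_right (by linarith), abs_of_nonneg (by linarith : 0 ≤ t - B),
        abs_of_nonneg (by linarith : 0 ≤ t)]
      linarith
    · rw [min_eq_right h', max_eq_right h]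
      simp

lemma clip_eq {B t : ℝ} (h : |t| ≤ B) : clip B t = t := by
  obtain ⟨h1, h2⟩ := abs_le.1 h
  rw [clip, min_eq_right h2, max_eq_right h1]

lemma integrable_clip {X : Type} [MeasurableSpace X] (P : Measure X) [IsProbabilityMeasure P]
    {B : ℝ} (hB : 0 ≤ B) {f : X → ℝ} (hf : Measurable f) :
    Integrable (fun s => clip B (f s)) P :=
  Integrable.mono' (integrable_const B) ((measurable_clip B).comp hf).aestronglyMeasurable
    (Eventually.of_forall fun s => abs_clip_le hB _)

lemma tendsto_clip {X : Type} [MeasurableSpace X] (P : Measure X) [IsProbabilityMeasure P]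
    {f : X → ℝ} (hm : Measurable f) (hf : Integrable f P) :
    Tendsto (fun n : ℕ => ∫ s, |f s - clip n (f s)| ∂P) atTop (𝓝 0) := by
  rw [show (0 : ℝ) = ∫ _s, (0 : ℝ) ∂P by simp]
  refine tendsto_integral_of_dominated_convergence (fun s => |f s|)
    (fun n => (hm.sub ((measurable_clip _).comp hm)).abs.aestronglyMeasurable) hf.abs
    (fun n => Eventually.of_forall fun s => ?_) (Eventually.of_forall fun s => ?_)
  · rw [Real.norm_eq_abs, abs_abs]
    exact abs_sub_clip_le (Nat.cast_nonneg n) _
  · refine tendsto_atTop_of_eventually_const (i₀ := ⌈|f s|⌉₊) fun n hn => ?_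
    rw [clip_eq ((Nat.le_ceil _).trans (by exact_mod_cast hn)), sub_self, abs_zero]

/-- It is enough to prove the lower bound for bounded models. -/
theorem lowerBound_of_bounded {K : ℕ} (hK2 : 2 ≤ K) {lam : ℝ} (hl : 0 < lam)
    (h : ∀ (B : ℝ) (μ : Measure (Table K)) (η : Measure ℝ), IsProbabilityMeasure μ →
      IsProbabilityMeasure η → BoundedModel B μ η → LowerBound lam μ η)
    (μ : Measure (Table K)) (η : Measure ℝ) [IsProbabilityMeasure μ] [IsProbabilityMeasure η]
    (hμ : ∀ σ, Integrable (fun θ => θ σ) μ) (hη : Integrable (fun x => x) η) :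
    LowerBound lam μ η := by
  intro ε hε
  have hlim : Tendsto (fun n : ℕ => (2 * K * lam) * (∑ σ : Fin K → Bool,
      ∫ θ, |θ σ - clip n (θ σ)| ∂μ) + 2 * ∫ t, |t - clip n t| ∂η) atTop (𝓝 0) := by
    have h1 := ((tendsto_finsetSum Finset.univ fun σ (_ : σ ∈ (Finset.univ : Finset (Fin K → Bool))) =>
      tendsto_clip μ (measurable_pi_apply σ) (hμ σ)).const_mul (2 * K * lam)).add
      ((tendsto_clip η measurable_id hη).const_mul 2)
    simpa using h1
  obtain ⟨n, hn⟩ := (hlim.eventually (gt_mem_nhds (half_pos hε))).exists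
  have hB : (0 : ℝ) ≤ n := Nat.cast_nonneg n
  set F : Table K → Table K := fun θ σ => clip n (θ σ)
  set δ : Table K → ℝ := fun θ => ∑ σ, |θ σ - clip n (θ σ)|
  have hF : Measurable F :=
    measurable_pi_lambda _ fun σ => (measurable_clip _).comp (measurable_pi_apply σ)
  have hiF : ∀ σ, Integrable (fun θ => F θ σ) μ := fun σ =>
    integrable_clip μ hB (measurable_pi_apply σ)
  have hgi : Integrable (clip (n : ℝ)) η := integrable_clip η hB measurable_id
  have hδi : ∀ σ : Fin K → Bool, Integrable (fun θ : Table K => |θ σ - clip n (θ σ)|) μ := fun σ =>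
    ((hμ σ).sub (hiF σ)).abs
  have hδ : Integrable δ μ := integrable_finsetSum _ fun σ _ => hδi σ
  have hdd : ∀ (θ : Table K) σ, |θ σ - F θ σ| ≤ δ θ := fun θ σ =>
    Finset.single_le_sum (f := fun σ => |θ σ - clip n (θ σ)|) (fun _ _ => abs_nonneg _)
      (Finset.mem_univ σ)
  have hle : ∀ (θ : Table K) σ, id θ σ ≤ F θ σ + δ θ := fun θ σ => by
    have := (abs_le.1 (hdd θ σ)).2; simp only [id]; linarith
  have hle' : ∀ (θ : Table K) σ, F θ σ ≤ id θ σ + δ θ := fun θ σ => by
    have := (abs_le.1 (hdd θ σ)).1; simp only [id]; linarith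
  have hμp : IsProbabilityMeasure (μ.map F) := Measure.isProbabilityMeasure_map hF.aemeasurable
  have hηp : IsProbabilityMeasure (η.map (clip (n : ℝ))) :=
    Measure.isProbabilityMeasure_map (measurable_clip _).aemeasurable
  have hbd : BoundedModel (n : ℝ) (μ.map F) (η.map (clip (n : ℝ))) := by
    refine ⟨ae_all_iff.2 fun σ => ?_, ?_⟩
    · exact (ae_map_iff hF.aemeasurable (measurableSet_le (measurable_pi_apply σ).abs
        measurable_const)).2 (Eventually.of_forall fun θ => abs_clip_le hB _)
    · exact (ae_map_iff (measurable_clip _).aemeasurable (measurableSet_le measurable_id.abs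
        measurable_const)).2 (Eventually.of_forall fun t => abs_clip_le hB _)
  filter_upwards [h n _ _ hμp hηp hbd (ε / 2) (half_pos hε), eventually_ge_atTop 1] with N hN hN1
  obtain ⟨v, ⟨r, m, x, hmono, hm, hx, hxb, rfl⟩, hle1⟩ := hN
  refine ⟨trialValue lam μ η m x, ⟨r, m, x, hmono, hm, hx, hxb, rfl⟩, ?_⟩
  set D := ∫ θ, δ θ ∂μ
  set E := ∫ t, |t - clip n t| ∂η
  have hD : D = ∑ σ : Fin K → Bool, ∫ θ, |θ σ - clip n (θ σ)| ∂μ :=
    integral_finsetSum _ fun σ _ => hδi σ
  have hD0 : 0 ≤ D := integral_nonneg fun θ => Finset.sum_nonneg fun _ _ => abs_nonneg _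
  have hp := pressure_comp_le (P := μ) (Q := η) (lam := lam) hl.le hF measurable_id hiF hμ hδ hle'
    (measurable_clip _) measurable_id hgi hη hN1
  have hs := siteTrial_comp_le (P := μ) (Q := η) (lam := lam) (m := m) (x := x) (by omega) hl.le
    (fun p => (hm p).1) hx hxb measurable_id hF hμ hiF hδ hle measurable_id (measurable_clip _)
    hη hgi
  have he := edgeTrial_map_le (P := μ) (lam := lam) (m := m) (x := x) (by omega) hl.le
    (fun p => (hm p).1) hx hxb hF measurable_id hiF hμ hδ hle'
  simp only [Measure.map_id, id_eq, abs_sub_comm (clip (n : ℝ) _)] at hp hs he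
  rw [← hD] at hn
  rw [trialValue_eq] at hle1 ⊢
  linarith

end Vale.Agent.P168
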