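import Vale.Agent.P168.Nest
import Vale.Agent.P168.Upper.Compare
import Vale.Agent.P168.Upper.Core.Main

/-!
P168: the interpolation bound for every number of sites.
-/

namespace Vale.Agent.P168

open MeasureTheory Filter Vale.Agent.P157.Low
open scoped Topology

variable {K : ℕ}

/-- The clause function with `a = 1` and `b` shrunk by `ρ`. -/
noncomputable def shrink (ρ : ℝ) (p : Param K) : Table K := coreTable ρ (ρ * p.2.1, p.2.2)

lemma abs_log_ratio_le {ρ y z : ℝ} (h0 : 0 ≤ ρ) (h1 : ρ ≤ 1) (hy : |y| < 1) (hz : |z| < 1) :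
    |Real.log (1 + ρ * y) - Real.log (1 + ρ * z)| ≤ |Real.log (1 + y) - Real.log (1 + z)| := by
  wlog h : z ≤ y generalizing y z
  · rw [abs_sub_comm, abs_sub_comm (Real.log (1 + y))]
    exact this hz hy (le_of_not_ge h)
  obtain ⟨y1, y2⟩ := abs_lt.1 hy
  obtain ⟨z1, z2⟩ := abs_lt.1 hz
  have py : 0 < 1 + ρ * y := by nlinarith
  have pz : 0 < 1 + ρ * z := by nlinarith
  have e1 : Real.log (1 + ρ * z) ≤ Real.log (1 + ρ * y) := Real.log_le_log pz (by nlinarith)
  have e2 : Real.log (1 + z) ≤ Real.log (1 + y) := Real.log_le_log (by linarith) (by linarith)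
  rw [abs_of_nonneg (by linarith), abs_of_nonneg (by linarith)]
  have hm : (1 + ρ * y) * (1 + z) ≤ (1 + y) * (1 + ρ * z) := by nlinarith
  have := Real.log_le_log (by nlinarith) hm
  rw [Real.log_mul py.ne' (by linarith), Real.log_mul (by linarith) pz.ne'] at this
  linarith

lemma measurable_theta : Measurable (theta (K := K)) := by
  refine measurable_pi_lambda _ fun σ => Measurable.log ?_
  fun_prop

/-- How far the shrunk clause function is from the original one, up to a shift. -/
noncomputable def shrinkGap (ρ : ℝ) (p : Param K) : ℝ :=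
  ∑ σ, |(theta p σ - shrink ρ p σ) - (theta p (fun _ => true) - shrink ρ p fun _ => true)|

variable {P : Measure (Param K)} {η : Measure ℝ}

lemma measurable_shrink (ρ : ℝ) : Measurable (shrink (K := K) ρ) :=
  (measurable_coreTable ρ).comp ((measurable_const.mul (measurable_fst.comp measurable_snd)).prodMk
    (measurable_snd.comp measurable_snd))

lemma integrable_shrink (hA : Admissible P η) {ρ : ℝ} (h0 : 0 ≤ ρ) (h1 : ρ < 1) (σ : Fin K → Bool) :
    Integrable (fun p => shrink ρ p σ) P := by
  have := hA.probP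
  refine Integrable.mono' (integrable_const (cost ρ))
    ((measurable_pi_apply σ).comp (measurable_shrink ρ)).aestronglyMeasurable
    (Eventually.of_forall fun p => ?_)
  obtain ⟨l, u⟩ := coreTable_mem h0 h1 (ρ * p.2.1, p.2.2) σ
  rw [Real.norm_eq_abs, abs_le, shrink, coreTable]
  exact ⟨by simpa using Real.log_le_log (Real.exp_pos _) l,
    by simpa using Real.log_le_log ((Real.exp_pos _).trans_le l) u⟩

lemma integrable_shrinkGap (hA : Admissible P η) {ρ : ℝ} (h0 : 0 ≤ ρ) (h1 : ρ < 1) :
    Integrable (shrinkGap ρ) P :=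
  integrable_finsetSum _ fun σ _ => (((hA.intTheta σ).sub (integrable_shrink hA h0 h1 σ)).sub
    ((hA.intTheta _).sub (integrable_shrink hA h0 h1 _))).abs

/-- The gap vanishes in mean as `ρ` tends to one. -/
lemma tendsto_shrinkGap (hA : Admissible P η) {ρ : ℕ → ℝ} (h0 : ∀ n, 0 ≤ ρ n) (h1 : ∀ n, ρ n < 1)
    (hρ : Tendsto ρ atTop (𝓝 1)) :
    Tendsto (fun n => ∫ p, shrinkGap (ρ n) p ∂P) atTop (𝓝 0) := by
  have := hA.probP
  set tr : Fin K → Bool := fun _ => true
  set D : Param K → (Fin K → Bool) → ℝ := fun p σ => theta p σ - theta p tr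
  set X : Param K → (Fin K → Bool) → ℝ := fun p σ => p.2.1 * ∏ j, p.2.2 j (σ j)
  have hgap : ∀ᵐ p ∂P, (∀ σ, |X p σ| < 1) ∧
      (∀ σ, D p σ = Real.log (1 + X p σ) - Real.log (1 + X p tr)) ∧
      ∀ n, shrinkGap (ρ n) p = ∑ σ, |D p σ -
        (Real.log (1 + ρ n * X p σ) - Real.log (1 + ρ n * X p tr))| := by
    refine hA.range.mono fun p ⟨ha, hb, hf⟩ => ?_
    have hX : ∀ σ, |X p σ| < 1 := fun σ => by
      refine lt_of_le_of_lt ?_ hb
      rw [abs_mul, Finset.abs_prod]
      exact mul_le_of_le_one_right (abs_nonneg _)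
        (Finset.prod_le_one (fun _ _ => abs_nonneg _) fun j _ => hf j _)
    have hθ : ∀ σ, theta p σ = Real.log p.1 + Real.log (1 + X p σ) := fun σ => by
      have := (abs_lt.1 (hX σ)).1
      rw [theta, Real.log_mul ha.ne' (by simp only [X] at this; linarith)]
    have hs : ∀ n σ, shrink (ρ n) p σ = Real.log (1 + ρ n * X p σ) := fun n σ => by
      have hc : uclip (ρ n) (ρ n * p.2.1) = ρ n * p.2.1 := uclip_of_abs_le (by
        rw [abs_mul, abs_of_nonneg (h0 n)]; exact mul_le_of_le_one_right (h0 n) hb.le)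
      simp only [shrink, coreTable, hc, fOf, X, mul_assoc,
        fun j => uclip_of_abs_le (hf j (σ j))]
    refine ⟨hX, fun σ => by simp only [D, hθ]; ring, fun n => Finset.sum_congr rfl fun σ _ => ?_⟩
    simp only [D, hs, tr]
    congr 1
    ring
  have hzero : (0 : ℝ) = ∫ _p, (0 : ℝ) ∂P := by simp
  rw [hzero]
  refine tendsto_integral_of_dominated_convergence (fun p => ∑ σ, 2 * |D p σ|)
    (fun n => (integrable_shrinkGap hA (h0 n) (h1 n)).aestronglyMeasurable)
    (integrable_finsetSum _ fun σ _ => ((hA.intTheta σ).sub (hA.intTheta tr)).abs.const_mul 2)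
    (fun n => hgap.mono fun p ⟨hX, hD, hg⟩ => ?_) (hgap.mono fun p ⟨hX, hD, hg⟩ => ?_)
  · rw [hg, Real.norm_eq_abs, abs_of_nonneg (Finset.sum_nonneg fun σ _ => abs_nonneg _)]
    refine Finset.sum_le_sum fun σ _ => (abs_sub _ _).trans ?_
    have := abs_log_ratio_le (h0 n) (h1 n).le (hX σ) (hX tr)
    rw [← hD σ] at this
    linarith
  · simp only [hg]
    rw [show (0 : ℝ) = ∑ σ : Fin K → Bool, |D p σ - (Real.log (1 + 1 * X p σ) -
      Real.log (1 + 1 * X p tr))| by simp [hD]]
    refine tendsto_finsetSum _ fun σ _ => (tendsto_const_nhds.sub (Tendsto.sub ?_ ?_)).abs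
    · exact ((hρ.mul_const _).const_add _).log (by linarith [(abs_lt.1 (hX σ)).1])
    · exact ((hρ.mul_const _).const_add _).log (by linarith [(abs_lt.1 (hX tr)).1])

/-- Every trial value is an upper bound for the pressure. -/
theorem pressure_le_trialValue {K : ℕ} (hK : Even K) (hK2 : 2 ≤ K) {lam : ℝ} (hl : 0 < lam)
    {P : Measure (Param K)} {η : Measure ℝ} (hA : Admissible P η) {v : ℝ}
    (hv : v ∈ trialValues lam (P.map theta) η) {N : ℕ} (hN : 1 ≤ N) :
    pressure lam (P.map theta) η N ≤ v := by
  have := hA.probP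
  have := hA.probH
  obtain ⟨r, m, x, hm, hI, hx, hxb, rfl⟩ := hv
  obtain ⟨C, hC⟩ := exists_casc (withZero m) (levels_withZero hm hI)
  obtain ⟨φ, _, hind⟩ := hA.indep
  have : NeZero K := ⟨by omega⟩
  have : NeZero N := ⟨by omega⟩
  set β := P.map fun p => p.2.1
  have hbm : Measurable fun p : Param K => p.2.1 := measurable_fst.comp measurable_snd
  have : IsProbabilityMeasure β := Measure.isProbabilityMeasure_map hbm.aemeasurable
  have hpm : ∀ p, 0 < m p := fun p => (hI p).1
  set ρ : ℕ → ℝ := fun n => 1 - 1 / ((n : ℝ) + 2)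
  have h0 : ∀ n, 0 ≤ ρ n := fun n => by
    have : (0 : ℝ) ≤ n := Nat.cast_nonneg n
    simp only [ρ, sub_nonneg]
    rw [div_le_one (by linarith)]
    linarith
  have h1 : ∀ n, ρ n < 1 := fun n => sub_lt_self _ (by positivity)
  have hρ : Tendsto ρ atTop (𝓝 1) := by
    have h : Tendsto (fun n : ℕ => 1 / ((n : ℝ) + 2)) atTop (𝓝 0) := by
      refine squeeze_zero (fun n => by positivity) (fun n => ?_)
        tendsto_one_div_add_atTop_nhds_zero_nat
      exact one_div_le_one_div_of_le (by positivity) (by linarith)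
    simpa [ρ] using h.const_sub 1
  have key : ∀ n, pressure lam (P.map theta) η N ≤
      trialValue lam (P.map theta) η m x + 2 * K * lam * ∫ p, shrinkGap (ρ n) p ∂P := by
    intro n
    have : IsProbabilityMeasure (β.map fun b => ρ n * b) :=
      Measure.isProbabilityMeasure_map (measurable_const_mul _).aemeasurable
    have hlaw : P.map (shrink (ρ n)) =
        (parLaw K (β.map fun b => ρ n * b) φ).map (coreTable (ρ n)) := by
      have hq : Measurable fun p : Param K => (p.2.1, p.2.2) := measurable_snd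
      have hs : Measurable fun q : UPar K => (ρ n * q.1, q.2) :=
        (measurable_fst.const_mul _).prodMk measurable_snd
      have e : parLaw K (β.map fun b => ρ n * b) φ =
          (β.prod (Measure.pi fun _ : Fin K => φ)).map fun q => (ρ n * q.1, q.2) := by
        conv_lhs => rw [parLaw, ← Measure.map_id (μ := Measure.pi fun _ : Fin K => φ)]
        exact Measure.map_prod_map _ _ (measurable_const_mul _) measurable_id
      rw [e, ← hind, Measure.map_map hs hq, Measure.map_map (measurable_coreTable _) (hs.comp hq)]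
      rfl
    have hpos : ∀ k : ℕ, 1 ≤ k → 0 ≤ ∫ b, (-uclip (ρ n) b) ^ k ∂β.map fun b => ρ n * b := by
      intro k hk
      have hg : Measurable fun b => (-uclip (ρ n) b) ^ k := (measurable_uclip _).neg.pow_const k
      rw [integral_map (measurable_const_mul _).aemeasurable hg.aestronglyMeasurable,
        integral_map hbm.aemeasurable (f := fun b => (-uclip (ρ n) (ρ n * b)) ^ k)
          (hg.comp (measurable_const_mul _)).aestronglyMeasurable,
        integral_congr_ae (g := fun p => ρ n ^ k * (-p.2.1) ^ k) (hA.range.mono fun p hp => ?_),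
        integral_const_mul]
      · exact mul_nonneg (pow_nonneg (h0 n) k) (hA.pos k hk)
      · show (-uclip (ρ n) (ρ n * p.2.1)) ^ k = _
        rw [uclip_of_abs_le (by
          rw [abs_mul, abs_of_nonneg (h0 n)]; exact mul_le_of_le_one_right (h0 n) hp.2.1.le)]
        dsimp only
        rw [← mul_pow, mul_neg]
    have core := pressure_le_core (N := N) hK hl.le
      (S := ⟨hC, hpm, hxb, h0 n, h1 n, hx⟩) (φ := φ) hpos hA.intField
    rw [← hlaw] at core
    set tr : Fin K → Bool := fun _ => true
    set c : Param K → ℝ := fun p => theta p tr - shrink (ρ n) p tr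
    set g : Param K → ℝ := shrinkGap (ρ n)
    have hc : Integrable c P := (hA.intTheta tr).sub (integrable_shrink hA (h0 n) (h1 n) tr)
    have hg : Integrable g P := integrable_shrinkGap hA (h0 n) (h1 n)
    have hle : ∀ p σ, |(theta p σ - shrink (ρ n) p σ) - c p| ≤ g p := fun p σ =>
      Finset.single_le_sum (f := fun s => |(theta p s - shrink (ρ n) p s) - c p|)
        (fun _ _ => abs_nonneg _) (Finset.mem_univ σ)
    have hup : ∀ p σ, theta p σ ≤ shrink (ρ n) p σ + (c p + g p) := fun p σ => by
      linarith [(abs_le.1 (hle p σ)).2]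
    have hdown : ∀ p σ, shrink (ρ n) p σ ≤ theta p σ + (-c p + g p) := fun p σ => by
      linarith [(abs_le.1 (hle p σ)).1]
    have hi' := integrable_shrink hA (h0 n) (h1 n)
    have a1 := pressure_map_le (P := P) hl.le measurable_theta (measurable_shrink (ρ n))
      hA.intTheta hi' (hc.add hg) hup hA.intField hN
    have a2 := siteTrial_map_le (P := P) (NeZero.pos K) hl.le hpm hx hxb (measurable_shrink (ρ n))
      measurable_theta hi' hA.intTheta (hc.neg.add hg) hdown hA.intField
    have a3 := edgeTrial_map_le (P := P) (NeZero.pos K) hl.le hpm hx hxb measurable_theta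
      (measurable_shrink (ρ n)) hA.intTheta hi' (hc.add hg) hup
    rw [trialValue_eq] at core ⊢
    simp only [Pi.add_apply, Pi.neg_apply] at a1 a2 a3
    rw [integral_add hc hg] at a1 a3
    rw [integral_add (f := fun p => -c p) hc.neg hg, integral_neg] at a2
    linarith
  have hlim := ((tendsto_shrinkGap hA h0 h1 hρ).const_mul (2 * (K : ℝ) * lam)).const_add
    (trialValue lam (P.map theta) η m x)
  rw [mul_zero, add_zero] at hlim
  exact ge_of_tendsto' hlim key

end Vale.Agent.P168
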