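import Vale.Agent.P168.Fin.Exists
import Vale.Agent.P168.MP.Coarse
import Vale.Agent.P168.Upper
import Vale.Agent.P168.Trunc

/-!
P168: the pressure converges to the infimum of the trial functional.
-/

namespace Vale.Agent.P168

open MeasureTheory Filter
open scoped Topology

lemma withZero_tail {r : ℕ} {c : Fin (r + 1) → ℝ} (h : c 0 = 0) :
    withZero (fun p : Fin r => c p.succ) = c := by
  funext i
  refine Fin.cases ?_ (fun p => ?_) i <;> simp [withZero, h]

lemma SiteKer.col_isProb {r : ℕ} {C : Vale.Agent.P157.Low.Casc r} (κ : SiteKer C) :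
    κ.col.IsProb := by
  have hgood : ∀ n A, C.P n A ≠ 0 → Vale.Agent.P157.Low.Good A := fun n A h => C.good h
  constructor
  · intro m n σ
    refine Finset.sum_nonneg fun A _ => ?_
    rcases eq_or_ne (C.P n A) 0 with h | h
    · simp [h]
    · exact mul_nonneg (C.nonneg n A)
        (Finset.prod_nonneg fun i _ => κ.nonneg n A _ (hgood n A h))
  · intro m n
    simp only [SiteKer.col]
    rw [Finset.sum_comm]
    refine Eq.trans (Finset.sum_congr rfl fun A _ => ?_) (C.total n)
    rw [← Finset.mul_sum]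
    rcases eq_or_ne (C.P n A) 0 with h | h
    · simp [h]
    rw [← (Equiv.piComm fun (_ : Fin m) (_ : Fin n) => Bool).sum_comp]
    simp only [Equiv.piComm_apply, Function.swap]
    rw [← Fintype.prod_sum fun (_ : Fin m) τ => κ.law n A τ]
    simp [κ.total n A (hgood n A h)]

/-- For bounded models every limit object has trial values nearly below its cavity functional. -/
theorem exists_trial_le {K : ℕ} (hK2 : 2 ≤ K) {lam B0 : ℝ} (hl : 0 < lam) {μ : Measure (Table K)}
    {η : Measure ℝ} [IsProbabilityMeasure μ] [IsProbabilityMeasure η] (hb : BoundedModel B0 μ η)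
    (L : Lim) {ε : ℝ} (hε : 0 < ε) :
    ∃ v ∈ trialValues lam μ η, v ≤ cavityVal lam μ η L.colLaw + ε := by
  obtain ⟨κ, hκ⟩ := exists_coarse L
  have h1 := tendsto_cavityVal hK2 hl hb (fun t => (κ t).ker.col_isProb) hκ
  obtain ⟨t, ht⟩ := (h1.eventually_lt_const (u := cavityVal lam μ η L.colLaw + ε / 2)
    (by linarith)).exists
  obtain ⟨x, hxm, hxb, hx⟩ := exists_trials (κ t).ker
  have h2 := tendsto_cavityVal hK2 hl hb
    (fun s => trialLaw_isProb (κ t).C (hxm s) (hxb s)) hx
  obtain ⟨s, hs⟩ := (h2.eventually_lt_const (u := cavityVal lam μ η L.colLaw + ε)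
    (by linarith)).exists
  set m : Fin (κ t).r → ℝ := fun p => (κ t).C.cdf p.succ
  have hlev := (κ t).lev
  have hm : ∀ p, 0 < m p := fun p => by
    have := hlev.strict (Fin.succ_pos p)
    rw [hlev.zero] at this
    exact this
  refine ⟨trialValue lam μ η m (x s), ⟨(κ t).r, m, x s, fun p q hpq =>
    hlev.strict (Fin.succ_lt_succ_iff.2 hpq), fun p => ⟨hm p, hlev.ltOne _⟩, hxm s, hxb s, rfl⟩, ?_⟩
  rw [← cavityVal_trialLaw hK2 hl hb (κ t).C (withZero_tail hlev.zero).symm hm (hxm s) (hxb s)]
  exact hs.le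

lemma trialValues_nonempty {K : ℕ} (lam : ℝ) (μ : Measure (Table K)) (η : Measure ℝ) :
    (trialValues lam μ η).Nonempty :=
  ⟨_, 0, finZeroElim, fun _ => 0, fun p => p.elim0, fun p => p.elim0, measurable_const,
    fun _ => by simp, rfl⟩

/-- The lower bound for bounded models. -/
theorem lowerBound_bounded {K : ℕ} (hK2 : 2 ≤ K) {lam : ℝ} (hl : 0 < lam) (B0 : ℝ)
    (μ : Measure (Table K)) (η : Measure ℝ) [IsProbabilityMeasure μ] [IsProbabilityMeasure η]
    (hb : BoundedModel B0 μ η) : LowerBound lam μ η := by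
  intro ε hε
  by_contra h
  rw [Filter.not_eventually] at h
  push Not at h
  obtain ⟨N0, hN0⟩ := h.exists
  set V := trialValues lam μ η
  have hbdd : BddBelow V := ⟨pressure lam μ η N0, fun v hv => by linarith [hN0 v hv]⟩
  have hfreq : ∃ᶠ N in atTop, pressure lam μ η N ≤ sInf V - ε := h.mono fun N hN => by
    have : pressure lam μ η N + ε ≤ sInf V :=
      le_csInf (trialValues_nonempty lam μ η) fun v hv => by linarith [hN v hv]
    linarith
  obtain ⟨L, hL⟩ := exists_lim hK2 hl hb hfreq
  obtain ⟨v, hv, hvle⟩ := exists_trial_le hK2 hl hb L (half_pos hε)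
  linarith [csInf_le hbdd hv]

/-- The Mézard–Parisi formula. -/
theorem mezardParisi {K : ℕ} (hK : Even K) (hK2 : 2 ≤ K) {lam : ℝ} (hl : 0 < lam)
    {P : Measure (Param K)} {η : Measure ℝ} (hA : Admissible P η) :
    (trialValues lam (P.map theta) η).Nonempty ∧ BddBelow (trialValues lam (P.map theta) η) ∧
      Tendsto (pressure lam (P.map theta) η) atTop
        (𝓝 (sInf (trialValues lam (P.map theta) η))) := by
  have := hA.probP
  have := hA.probH
  set μ := P.map (theta (K := K)) with hμ
  have : IsProbabilityMeasure μ := Measure.isProbabilityMeasure_map measurable_theta.aemeasurable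
  have hint : ∀ σ, Integrable (fun θ : Table K => θ σ) μ := fun σ =>
    (integrable_map_measure (measurable_pi_apply σ).aestronglyMeasurable
      measurable_theta.aemeasurable).2 (hA.intTheta σ)
  have hbdd : BddBelow (trialValues lam μ η) :=
    ⟨pressure lam μ η 1, fun v hv => pressure_le_trialValue hK hK2 hl hA hv le_rfl⟩
  refine ⟨trialValues_nonempty lam μ η, hbdd, ?_⟩
  have hlow : LowerBound lam μ η := lowerBound_of_bounded hK2 hl
    (fun B μ' η' _ _ hb => lowerBound_bounded hK2 hl B μ' η' hb) μ η hint hA.intField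
  refine tendsto_order.2 ⟨fun a ha => ?_, fun a ha => ?_⟩
  · filter_upwards [hlow ((sInf (trialValues lam μ η) - a) / 2) (by linarith)] with N ⟨v, hv, hvN⟩
    linarith [csInf_le hbdd hv]
  · obtain ⟨v, hv, hva⟩ := exists_lt_of_csInf_lt (trialValues_nonempty lam μ η) ha
    filter_upwards [eventually_ge_atTop 1] with N hN
    exact (pressure_le_trialValue hK hK2 hl hA hv hN).trans_lt hva

end Vale.Agent.P168
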