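import Vale.Agent.P168.CascForm
import Vale.Agent.P157.Low.CavityValue
import Vale.Agent.P166F.Low.Cascade.Insert
import Vale.Agent.P166F.Low.Cascade.Stable
import Vale.Agent.P168.Upper.Product
import Vale.Agent.P168.Upper.Expand

/-!
P168: the nested averages of the trial functional as towers over a cascade.
-/

namespace Vale.Agent.P168

open MeasureTheory Vale.Agent.P157.Low Vale.Agent.P166F.Low.Cascade

variable {r : ℕ} {Ω Ω' : Type} [MeasurableSpace Ω] [MeasurableSpace Ω']

/-- The tower of paths: level `j` draws the coordinate `j`. -/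
noncomputable def pathTower (C : Casc r) (ν : Measure Ω) [IsProbabilityMeasure ν] (x0 : Ω) :
    Tower (Fin (r + 1) → Ω) Ω where
  step j y ξ := Function.update y (lvl r j) ξ
  μ := ν
  prob := inferInstance
  meas j := measurable_update'
  m j := C.cdf (lvl r j)
  mNonneg j := C.cdf_nonneg _
  mLeOne j := C.cdf_le_one _
  x0 := fun _ => x0


/-- A path of length `k + 1` completed by `x0`. -/
def extPath (x0 : Ω) {k : ℕ} (z : Fin (k + 1) → Ω) : Fin (r + 1) → Ω :=
  fun p => if h : (p : ℕ) < k + 1 then z ⟨p, h⟩ else x0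

omit [MeasurableSpace Ω] in
lemma update_extPath (x0 : Ω) {k : ℕ} (hk : k + 1 ≤ r) (z : Fin (k + 1) → Ω) (ξ : Ω) :
    Function.update (extPath (r := r) x0 z) (lvl r (k + 1)) ξ = extPath x0 (Fin.snoc z ξ) := by
  funext p
  by_cases hp : p = lvl r (k + 1)
  · subst hp
    rw [Function.update_self, extPath, dif_pos (by rw [lvl_val hk]; omega)]
    have : (⟨(lvl r (k + 1) : ℕ), by rw [lvl_val hk]; omega⟩ : Fin (k + 1 + 1)) = Fin.last _ :=
      Fin.ext (lvl_val hk)
    rw [this, Fin.snoc_last]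
  · have hne : (p : ℕ) ≠ k + 1 := fun h => hp (Fin.ext (by rw [lvl_val hk, h]))
    rw [Function.update_of_ne hp]
    simp only [extPath]
    by_cases h : (p : ℕ) < k + 1
    · rw [dif_pos h, dif_pos (by omega),
        show (⟨(p : ℕ), by omega⟩ : Fin (k + 1 + 1)) = Fin.castSucc ⟨p, h⟩ from rfl,
        Fin.snoc_castSucc]
    · rw [dif_neg h, dif_neg (by omega)]

lemma measurable_snocPath (r : ℕ) :
    Measurable fun p : (Fin (r + 1) → Ω) × Ω => (Fin.snoc p.1 p.2 : Fin (r + 1 + 1) → Ω) := by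
  refine measurable_pi_lambda _ fun i => ?_
  refine i.lastCases ?_ fun j => ?_
  · simpa using measurable_snd
  · simp only [Fin.snoc_castSucc]
    exact (measurable_pi_apply j).comp measurable_fst

lemma measurable_downStep (ν : Measure Ω) [SFinite ν] {r : ℕ} {Y : (Fin (r + 1 + 1) → Ω) → ℝ}
    (hY : Measurable Y) (s : ℝ) :
    Measurable fun z : Fin (r + 1) → Ω => (∫ ξ, Y (Fin.snoc z ξ) ^ s ∂ν) ^ (1 / s) :=
  (((hY.comp (measurable_snocPath r)).pow_const s).stronglyMeasurable.integral_prod_right'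
    (ν := ν)).measurable.pow_const _

lemma measurable_down (ν : Measure Ω) [SFinite ν] : ∀ (r : ℕ) (m : Fin r → ℝ)
    {Y : (Fin (r + 1) → Ω) → ℝ}, Measurable Y → Measurable (down ν r m Y)
  | 0, _, _, hY => hY.comp (measurable_pi_lambda _ fun _ => measurable_id)
  | r + 1, _, _, hY => measurable_down ν r _ (measurable_downStep ν hY _)

/-- The recursion stays between the bounds of its start. -/
lemma down_mem (ν : Measure Ω) [IsProbabilityMeasure ν] {L : ℝ} : ∀ (r : ℕ) (m : Fin r → ℝ),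
    (∀ p, 0 < m p) → ∀ {Y : (Fin (r + 1) → Ω) → ℝ}, Measurable Y →
      (∀ z, Real.exp (-L) ≤ Y z ∧ Y z ≤ Real.exp L) →
      ∀ ω, Real.exp (-L) ≤ down ν r m Y ω ∧ down ν r m Y ω ≤ Real.exp L
  | 0, _, _, _, _, hb => fun _ => hb _
  | r + 1, m, hm, Y, hY, hb => by
    refine down_mem ν r _ (fun p => hm _) (measurable_downStep ν hY _) fun z => ?_
    set s := m (Fin.last r)
    have hs : 0 < s := hm _
    have hl : ∀ ξ, Real.exp (-L) ^ s ≤ Y (Fin.snoc z ξ) ^ s := fun ξ =>
      Real.rpow_le_rpow (Real.exp_pos _).le (hb _).1 hs.le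
    have hu : ∀ ξ, Y (Fin.snoc z ξ) ^ s ≤ Real.exp L ^ s := fun ξ =>
      Real.rpow_le_rpow ((Real.exp_pos _).le.trans (hb _).1) (hb _).2 hs.le
    have hi : Integrable (fun ξ => Y (Fin.snoc z ξ) ^ s) ν := by
      refine Integrable.mono' (integrable_const (Real.exp L ^ s))
        (((hY.comp (measurable_snocPath r)).comp measurable_prodMk_left).pow_const
          s).aestronglyMeasurable (Filter.Eventually.of_forall fun ξ => ?_)
      rw [Real.norm_eq_abs, abs_of_nonneg (Real.rpow_nonneg ((Real.exp_pos _).le.trans (hb _).1) _)]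
      exact hu ξ
    have h1 : Real.exp (-L) ^ s ≤ ∫ ξ, Y (Fin.snoc z ξ) ^ s ∂ν := by
      simpa using integral_mono (integrable_const _) hi hl
    have h2 : ∫ ξ, Y (Fin.snoc z ξ) ^ s ∂ν ≤ Real.exp L ^ s := by
      simpa using integral_mono hi (integrable_const _) hu
    have hroot : ∀ x : ℝ, (Real.exp x ^ s) ^ (1 / s) = Real.exp x := fun x => by
      rw [← Real.rpow_mul (Real.exp_pos _).le, mul_one_div_cancel hs.ne', Real.rpow_one]
    constructor
    · rw [← hroot (-L)]
      exact Real.rpow_le_rpow (by positivity) h1 (by positivity)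
    · rw [← hroot L]
      exact Real.rpow_le_rpow (le_trans (by positivity) h1) h2 (by positivity)

lemma down_prod (ν : Measure Ω) (ν' : Measure Ω') [SFinite ν] [SFinite ν'] :
    ∀ (r : ℕ) (m : Fin r → ℝ) {Y : (Fin (r + 1) → Ω) → ℝ} {Y' : (Fin (r + 1) → Ω') → ℝ},
      (∀ z, 0 ≤ Y z) → (∀ z, 0 ≤ Y' z) → ∀ ω : Ω × Ω',
      down (ν.prod ν') r m (fun z => Y (fun p => (z p).1) * Y' fun p => (z p).2) ω =
        down ν r m Y ω.1 * down ν' r m Y' ω.2
  | 0, _, _, _, _, _ => fun _ => rfl
  | r + 1, m, Y, Y', hY, hY' => fun ω => by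
    simp only [down]
    rw [← down_prod ν ν' r (fun p => m p.castSucc)
      (Y := fun z => (∫ ξ, Y (Fin.snoc z ξ) ^ m (Fin.last r) ∂ν) ^ (1 / m (Fin.last r)))
      (Y' := fun z => (∫ ξ, Y' (Fin.snoc z ξ) ^ m (Fin.last r) ∂ν') ^ (1 / m (Fin.last r)))
      (fun z => Real.rpow_nonneg (integral_nonneg fun ξ => Real.rpow_nonneg (hY _) _) _)
      (fun z => Real.rpow_nonneg (integral_nonneg fun ξ => Real.rpow_nonneg (hY' _) _) _)]
    refine congrArg (fun F => down (ν.prod ν') r _ F ω) (funext fun z => ?_)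
    rw [← Real.mul_rpow (integral_nonneg fun ξ => Real.rpow_nonneg (hY _) _)
      (integral_nonneg fun ξ => Real.rpow_nonneg (hY' _) _), ← integral_prod_mul]
    congr 1
    refine integral_congr_ae (Filter.Eventually.of_forall fun ξ => ?_)
    have e1 : (fun p => ((Fin.snoc z ξ : Fin (r + 1 + 1) → Ω × Ω') p).1) =
        Fin.snoc (fun p => (z p).1) ξ.1 := by
      funext p; refine p.lastCases ?_ fun j => ?_ <;> simp
    have e2 : (fun p => ((Fin.snoc z ξ : Fin (r + 1 + 1) → Ω × Ω') p).2) =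
        Fin.snoc (fun p => (z p).2) ξ.2 := by
      funext p; refine p.lastCases ?_ fun j => ?_ <;> simp
    simp only [e1, e2, Real.mul_rpow (hY _) (hY' _)]

lemma down_map (ν : Measure Ω) (ν' : Measure Ω') [SFinite ν'] {e : Ω → Ω'}
    (he : MeasurePreserving e ν ν') :
    ∀ (r : ℕ) (m : Fin r → ℝ) {Y : (Fin (r + 1) → Ω') → ℝ}, Measurable Y → ∀ ω,
      down ν r m (fun z => Y fun p => e (z p)) ω = down ν' r m Y (e ω)
  | 0, _, _, _ => fun _ => rfl
  | r + 1, m, Y, hY => fun ω => by
    simp only [down]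
    rw [← down_map ν ν' he r _ (measurable_downStep ν' hY (m (Fin.last r))) ω]
    refine congrArg (fun F => down ν r _ F ω) (funext fun z => ?_)
    congr 1
    conv_rhs => rw [← he.map_eq]
    rw [integral_map he.measurable.aemeasurable
      (f := fun ξ => Y (Fin.snoc (fun p => e (z p)) ξ) ^ m (Fin.last r))
      (((hY.comp (measurable_snocPath r)).comp measurable_prodMk_left).pow_const
        _).aestronglyMeasurable]
    refine integral_congr_ae (Filter.Eventually.of_forall fun ξ => ?_)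
    have e1 : (fun p => e ((Fin.snoc z ξ : Fin (r + 1 + 1) → Ω) p)) =
        Fin.snoc (fun p => e (z p)) (e ξ) := by
      funext p; refine p.lastCases ?_ fun j => ?_ <;> simp
    simp only [e1]

variable (C : Casc r) (ν : Measure Ω) [IsProbabilityMeasure ν] (x0 : Ω)

theorem pathTower_fits : (pathTower C ν x0).Fits C := fun _ _ => rfl

lemma exp_lev_step {Y : (Fin (r + 1) → Ω) → ℝ} {L : ℝ} (hU : Bdd (fun y => Real.log (Y y)) L)
    {m : Fin r → ℝ} (hC : C.cdf = withZero m) (hm : ∀ p, 0 < m p) :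
    ∀ (k : ℕ) (hk : k ≤ r) (Y' : (Fin (k + 1) → Ω) → ℝ),
      (∀ z, 0 < Y' z ∧ Real.log (Y' z) =
        (pathTower C ν x0).lev (r + 1) (fun y => Real.log (Y y)) (k + 1) (extPath x0 z)) →
      ∀ ω, Real.log (down ν k (fun p => m (Fin.castLE hk p)) Y' ω) =
        (pathTower C ν x0).lev (r + 1) (fun y => Real.log (Y y)) 1
          (extPath x0 fun _ : Fin 1 => ω)
  | 0, _, Y', h => fun ω => (h _).2
  | k + 1, hk, Y', h => fun ω => by
    set T := pathTower C ν x0
    set U := fun y => Real.log (Y y)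
    have hmk : T.m (k + 1) = m (Fin.castLE hk (Fin.last k)) := by
      show C.cdf (lvl r (k + 1)) = _
      rw [hC, show lvl r (k + 1) = Fin.succ (Fin.castLE hk (Fin.last k)) from
        Fin.ext (by simp [lvl_val hk]), withZero, Fin.cons_succ]
    set s := m (Fin.castLE hk (Fin.last k))
    have hs : 0 < s := hm _
    simp only [down]
    refine exp_lev_step hU hC hm k (by omega)
      (fun z => (∫ ξ, Y' (Fin.snoc z ξ) ^ s ∂ν) ^ (1 / s)) (fun z => ?_) ω
    have e : ∀ ξ, Y' (Fin.snoc z ξ) ^ s =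
        Real.exp (T.m (k + 1) * T.lev (r + 1) U (k + 1 + 1) (T.step (k + 1) (extPath x0 z) ξ)) := by
      intro ξ
      rw [Real.rpow_def_of_pos (h _).1, (h _).2, hmk, mul_comm]
      simp only [T, pathTower, update_extPath x0 hk]
    simp only [e]
    have hpos := (Real.exp_pos _).trans_le
      (Tower.integral_exp_mem (T := T) (Tower.bdd_lev (T := T) (R := r + 1) hU (k + 1 + 1)) (k + 1)
        (extPath x0 z)).1
    refine ⟨Real.rpow_pos_of_pos hpos _, (Real.log_rpow hpos _).trans ?_⟩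
    rw [Tower.lev_succ (by omega), lavg, if_neg (by rw [hmk]; exact hs.ne'),
      hmk, one_div, inv_mul_eq_div]

/-- The trial average is the value of the tower at the root. -/
theorem trialAvg_eq_lev {m : Fin r → ℝ} (hC : C.cdf = withZero m) (hm : ∀ p, 0 < m p)
    {Y : (Fin (r + 1) → Ω) → ℝ} (hY : Measurable Y) (hpos : ∀ ω, 0 < Y ω) {L : ℝ}
    (hL : ∀ ω, |Real.log (Y ω)| ≤ L) :
    trialAvg ν m Y =
      (pathTower C ν x0).lev (r + 1) (fun y => Real.log (Y y)) 0 (pathTower C ν x0).x0 := by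
  have hU : Bdd (fun y => Real.log (Y y)) L := ⟨hY.log, hL⟩
  rw [Tower.lev_succ (Nat.succ_pos r), lavg, if_pos (by
    show C.cdf (lvl r 0) = 0
    rw [hC, show lvl r 0 = 0 from Fin.ext (by simp [lvl]), withZero, Fin.cons_zero])]
  refine integral_congr_ae (Filter.Eventually.of_forall fun ω => ?_)
  have h := exp_lev_step C ν x0 hU hC hm r le_rfl Y (fun z => ⟨hpos z, by
    rw [Tower.lev_top]
    refine congrArg (fun y => Real.log (Y y)) (funext fun p => ?_)
    simp [extPath, p.isLt]⟩) ω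
  simp only [Fin.castLE_rfl, id_eq] at h
  dsimp only
  rw [h]
  congr 1
  funext p
  by_cases hp : p = lvl r 0
  · subst hp; simp [pathTower, extPath, show lvl r 0 = 0 from Fin.ext (by simp [lvl])]
  · have : (p : ℕ) ≠ 0 := fun h0 => hp (Fin.ext (by simp [lvl, h0]))
    simp [pathTower, extPath, Function.update_of_ne hp, this]

/-- Independent factors add up. -/
theorem trialAvg_mul (ν' : Measure Ω') [IsProbabilityMeasure ν'] (m : Fin r → ℝ)
    (hm : ∀ p, 0 < m p ∧ m p < 1) {Y : (Fin (r + 1) → Ω) → ℝ} {Y' : (Fin (r + 1) → Ω') → ℝ}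
    (hY : Measurable Y) (hY' : Measurable Y') (hpos : ∀ ω, 0 < Y ω) (hpos' : ∀ ω, 0 < Y' ω) {L : ℝ}
    (hL : ∀ ω, |Real.log (Y ω)| ≤ L) (hL' : ∀ ω, |Real.log (Y' ω)| ≤ L) :
    trialAvg (ν.prod ν') m (fun ω => Y (fun p => (ω p).1) * Y' (fun p => (ω p).2)) =
      trialAvg ν m Y + trialAvg ν' m Y' := by
  have hb : ∀ z, Real.exp (-L) ≤ Y z ∧ Y z ≤ Real.exp L := fun z => by
    rw [← Real.exp_log (hpos z)]
    exact ⟨Real.exp_le_exp.2 (abs_le.1 (hL z)).1, Real.exp_le_exp.2 (abs_le.1 (hL z)).2⟩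
  have hb' : ∀ z, Real.exp (-L) ≤ Y' z ∧ Y' z ≤ Real.exp L := fun z => by
    rw [← Real.exp_log (hpos' z)]
    exact ⟨Real.exp_le_exp.2 (abs_le.1 (hL' z)).1, Real.exp_le_exp.2 (abs_le.1 (hL' z)).2⟩
  have hi : ∀ {X : Type} [MeasurableSpace X] (μ : Measure X) [IsProbabilityMeasure μ]
      {f : X → ℝ}, Measurable f → (∀ x, Real.exp (-L) ≤ f x ∧ f x ≤ Real.exp L) →
      Integrable (fun x => Real.log (f x)) μ := fun μ _ f hf h => by
    refine Integrable.mono' (integrable_const L) hf.log.aestronglyMeasurable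
      (Filter.Eventually.of_forall fun x => ?_)
    have h1 := Real.log_le_log (Real.exp_pos _) (h x).1
    have h2 := Real.log_le_log ((Real.exp_pos _).trans_le (h x).1) (h x).2
    rw [Real.log_exp] at h1 h2
    exact abs_le.2 ⟨h1, h2⟩
  have hd := down_mem ν r m (fun p => (hm p).1) hY hb
  have hd' := down_mem ν' r m (fun p => (hm p).1) hY' hb'
  simp only [trialAvg, down_prod ν ν' r m (fun z => (hpos z).le) (fun z => (hpos' z).le)]
  simp only [Real.log_mul ((Real.exp_pos _).trans_le (hd _).1).ne'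
    ((Real.exp_pos _).trans_le (hd' _).1).ne']
  rw [integral_add ((hi ν (measurable_down ν r m hY) hd).comp_fst ν')
    ((hi ν' (measurable_down ν' r m hY') hd').comp_snd ν), integral_fun_fst
      (fun x => Real.log (down ν r m Y x)), integral_fun_snd
      (fun x => Real.log (down ν' r m Y' x))]
  simp

/-- A change of the underlying randomness. -/
theorem trialAvg_map (ν' : Measure Ω') {e : Ω → Ω'} (he : MeasurePreserving e ν ν')
    (m : Fin r → ℝ) {Y : (Fin (r + 1) → Ω') → ℝ} (hY : Measurable Y) :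
    trialAvg ν m (fun ω => Y fun p => e (ω p)) = trialAvg ν' m Y := by
  have : IsProbabilityMeasure ν' := by
    rw [← he.map_eq]; exact Measure.isProbabilityMeasure_map he.measurable.aemeasurable
  simp only [trialAvg, down_map ν ν' he r m hY]
  have h := integral_map (μ := ν) he.measurable.aemeasurable
    (f := fun x => Real.log (down ν' r m Y x))
    (measurable_down ν' r m hY).log.aestronglyMeasurable
  rw [he.map_eq] at h
  exact h.symm

variable {C}

/-- The effect of a factor `1 - X` as a series of tilted averages. -/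
theorem lev_add_log {S : Type} [MeasurableSpace S] {T : Tower S Ω} (hT : T.Fits C) {U X : S → ℝ}
    {L ρ : ℝ} (hU : Bdd U L) (hX : Bdd X ρ) (h0 : 0 ≤ ρ) (h1 : ρ < 1) :
    HasSum (fun k : ℕ => T.av C U (fun _ : LMat r (k + 1) => 1) (fun _ => X) / ((k : ℝ) + 1))
      (T.lev (r + 1) U 0 T.x0 -
        T.lev (r + 1) (fun y => U y + Real.log (1 - X y)) 0 T.x0) := by
  exact hasSum_lev_add hT hU ((abs_nonneg _).trans (hU.le T.x0)) hX h0 h1

/-- Insertions of fresh coordinates are averaged without tilt. -/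
theorem tilt_fresh (ν' : Measure Ω') [IsProbabilityMeasure ν'] (x0' : Ω') {n : ℕ} {A : LMat r n}
    (hA : Good A) {U : (Fin (r + 1) → Ω) → ℝ} {L B : ℝ} (hU : Bdd U L)
    {g : Fin n → (Fin (r + 1) → Ω) → ℝ} {v : Fin n → (Fin (r + 1) → Ω') → ℝ}
    (hg : ∀ a, Bdd (g a) B) (hv : ∀ a, Bdd (v a) B) :
    (pathTower C (ν.prod ν') (x0, x0')).tilt (fun y => U fun p => (y p).1) A
        (fun a y => g a (fun p => (y p).1) * v a fun p => (y p).2) =
      (pathTower C ν x0).tilt U A g * (pathTower C ν' x0').plain A v := by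
  set φ : (Fin (r + 1) → Ω × Ω') → (Fin (r + 1) → Ω) × (Fin (r + 1) → Ω') :=
    fun y => (fun p => (y p).1, fun p => (y p).2)
  have h : Hom (pathTower C (ν.prod ν') (x0, x0'))
      (prodTower (pathTower C ν x0) (pathTower C ν' x0')) φ id :=
    { measS := (measurable_pi_lambda _ fun p => measurable_fst.comp (measurable_pi_apply p)).prodMk
        (measurable_pi_lambda _ fun p => measurable_snd.comp (measurable_pi_apply p))
      noise := MeasurePreserving.id _
      step := fun j y ξ => by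
        refine Prod.ext (funext fun p => ?_) (funext fun p => ?_) <;>
          by_cases hp : p = lvl r j <;> simp [φ, pathTower, prodTower, Function.update, hp]
      m := rfl
      x0 := rfl }
  refine (h.tilt_eq (U := (U ∘ Prod.fst)) (L := L) ⟨hU.meas.comp measurable_fst, fun s => hU.le _⟩
    A (g := fun a s => g a s.1 * v a s.2) fun a =>
      ((hg a).meas.comp measurable_fst).mul ((hv a).meas.comp measurable_snd)).trans ?_
  exact tilt_prod hU A g v

end Vale.Agent.P168
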