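import Vale.Agent.P168.Main

/-!
P168: the Viana–Bray model `θ = β g σ₁ σ₂` with symmetric `g` as a member of the class.
-/

namespace Vale.Agent.P168

open MeasureTheory Filter
open scoped Topology

/-- The parameters of a Viana–Bray clause at coupling `u`. -/
noncomputable def vbParam (u : ℝ) : Param 2 := (Real.cosh u, Real.tanh u, fun _ s => spin s)

/-- The Viana–Bray clause function. -/
def vbTable (β g : ℝ) : Table 2 := fun σ => β * g * (spin (σ 0) * spin (σ 1))

lemma theta_vbParam (β g : ℝ) : theta (vbParam (β * g)) = vbTable β g := by
  funext σ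
  have hc := Real.cosh_pos (β * g)
  have e : Real.cosh (β * g) * (1 + Real.tanh (β * g) * (spin (σ 0) * spin (σ 1))) =
      Real.exp (β * g * (spin (σ 0) * spin (σ 1))) := by
    have h1 : ∀ v : ℝ, Real.cosh (β * g) * (Real.tanh (β * g) * v) = Real.sinh (β * g) * v :=
      fun v => by rw [Real.tanh_eq_sinh_div_cosh]; field_simp
    rw [mul_add, mul_one, h1]
    cases σ 0 <;> cases σ 1 <;>
      simp [spin, Real.cosh_eq, Real.sinh_eq] <;> ring_nf
  simp only [theta, vbParam, Fin.prod_univ_two, vbTable]
  rw [e, Real.log_exp]

lemma measurable_vbParam (β : ℝ) : Measurable fun g => vbParam (β * g) := by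
  unfold vbParam
  refine Measurable.prodMk ?_ (Measurable.prodMk ?_ measurable_const)
  · fun_prop
  · simp only [Real.tanh_eq_sinh_div_cosh]
    fun_prop

/-- The Viana–Bray model is in the class. -/
theorem admissible_vianaBray {γ η : Measure ℝ} [IsProbabilityMeasure γ] [IsProbabilityMeasure η]
    (hsym : γ.map (fun g => -g) = γ) (hg : Integrable (fun g => g) γ)
    (hη : Integrable (fun h => h) η) (β : ℝ) :
    Admissible (γ.map fun g => vbParam (β * g)) η where
  probP := Measure.isProbabilityMeasure_map (measurable_vbParam β).aemeasurable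
  probH := inferInstance
  range := by
    have hm : MeasurableSet {p : Param 2 | 0 < p.1 ∧ |p.2.1| < 1 ∧ ∀ j s, |p.2.2 j s| ≤ 1} := by
      simp only [Set.ofPred_and, Set.ofPred_forall]
      refine (measurableSet_lt measurable_const measurable_fst).inter
        ((measurableSet_lt (by fun_prop) measurable_const).inter ?_)
      exact MeasurableSet.iInter fun j => MeasurableSet.iInter fun s =>
        measurableSet_le (by fun_prop) measurable_const
    rw [ae_map_iff (measurable_vbParam β).aemeasurable hm]
    refine Eventually.of_forall fun g => ⟨Real.cosh_pos _, Real.abs_tanh_lt_one _, fun j s => ?_⟩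
    cases s <;> simp [vbParam, spin]
  indep := by
    refine ⟨Measure.dirac fun s => spin s, inferInstance, ?_⟩
    have hb : Measurable fun g => Real.tanh (β * g) := by
      simp only [Real.tanh_eq_sinh_div_cosh]; fun_prop
    rw [Measure.map_map (by fun_prop) (measurable_vbParam β),
      Measure.map_map (by fun_prop) (measurable_vbParam β)]
    have hd : (Measure.pi fun _ : Fin 2 => Measure.dirac (fun s => spin s)) =
        Measure.dirac fun (_ : Fin 2) (s : Bool) => spin s := by
      refine Measure.pi_eq fun t ht => ?_
      rw [Measure.dirac_apply' _ (MeasurableSet.univ_pi ht)]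
      simp only [Fin.prod_univ_two]
      rw [Measure.dirac_apply' _ (ht 0), Measure.dirac_apply' _ (ht 1)]
      by_cases h0 : (fun s => spin s) ∈ t 0 <;> by_cases h1 : (fun s => spin s) ∈ t 1 <;>
        simp [Set.indicator, h0, h1, Fin.forall_fin_two]
    rw [hd, Measure.prod_dirac, Measure.map_map (by fun_prop) (by exact hb)]
    rfl
  pos n _ := by
    have hm : Measurable fun p : Param 2 => (-p.2.1) ^ n := by fun_prop
    rw [integral_map (measurable_vbParam β).aemeasurable hm.aestronglyMeasurable]
    simp only [vbParam]
    rcases n.even_or_odd with he | ho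
    · exact integral_nonneg fun g => he.pow_nonneg _
    refine le_of_eq ?_
    set φ : ℝ → ℝ := fun g => (-Real.tanh (β * g)) ^ n
    have hφ : Measurable φ := by
      simp only [φ, Real.tanh_eq_sinh_div_cosh]; fun_prop
    have h := integral_map (μ := γ) measurable_neg.aemeasurable hφ.aestronglyMeasurable
    rw [hsym] at h
    have h2 : ∫ g, φ (-g) ∂γ = -∫ g, φ g ∂γ := by
      rw [← integral_neg]
      refine integral_congr_ae (Eventually.of_forall fun g => ?_)
      simp [φ, Real.tanh_neg, ho.neg_pow]
    change 0 = ∫ g, φ g ∂γ
    linarith [h.trans h2]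
  intTheta σ := by
    have hm : Measurable fun p : Param 2 => theta p σ :=
      (measurable_pi_apply σ).comp measurable_theta
    rw [integrable_map_measure hm.aestronglyMeasurable (measurable_vbParam β).aemeasurable]
    refine ((hg.const_mul β).mul_const (spin (σ 0) * spin (σ 1))).congr
      (Eventually.of_forall fun g => ?_)
    show _ = theta (vbParam (β * g)) σ
    rw [theta_vbParam]
    rfl
  intField := hη

/-- The Mézard–Parisi formula for the Viana–Bray model. -/
theorem vianaBray {γ η : Measure ℝ} [IsProbabilityMeasure γ] [IsProbabilityMeasure η]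
    (hsym : γ.map (fun g => -g) = γ) (hg : Integrable (fun g => g) γ)
    (hη : Integrable (fun h => h) η) (β : ℝ) {lam : ℝ} (hl : 0 < lam) :
    Tendsto (pressure lam (γ.map (vbTable β)) η) atTop
      (𝓝 (sInf (trialValues lam (γ.map (vbTable β)) η))) := by
  have e : γ.map (vbTable β) = (γ.map fun g => vbParam (β * g)).map theta := by
    rw [Measure.map_map measurable_theta (measurable_vbParam β)]
    congr 1
    funext g
    exact (theta_vbParam β g).symm
  rw [e]
  exact (mezardParisi even_two le_rfl hl (admissible_vianaBray hsym hg hη β)).2.2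

end Vale.Agent.P168
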